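import Vale.Agent.P022.H735.KWDefs
import Vale.Agent.P022.H735.Recip
import Vale.Agent.P022.H735.Frob

/-! P11: the Kronecker-Weber step. -/

namespace Vale.Agent.P022

open NumberField
open scoped Pointwise

noncomputable section

namespace H954

/-! ### the ring of integers of `ℚ` -/

lemma prime_span_nat {l : ℕ} (hl : l.Prime) : Prime ((l : ℕ) : 𝓞 ℚ) := by
  have h1 : Prime ((l : ℕ) : ℤ) := Nat.prime_iff_prime_int.mp hl
  have h3 : Rat.ringOfIntegersEquiv.toMulEquiv ((l : ℕ) : 𝓞 ℚ) = (l : ℤ) := by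
    change Rat.ringOfIntegersEquiv ((l : ℕ) : 𝓞 ℚ) = (l : ℤ)
    exact map_natCast _ _
  rw [← MulEquiv.prime_iff Rat.ringOfIntegersEquiv.toMulEquiv, h3]
  exact h1

lemma isPrime_span {l : ℕ} (hl : l.Prime) : (Ideal.span {((l : ℕ) : 𝓞 ℚ)}).IsPrime :=
  (Ideal.span_singleton_prime (prime_span_nat hl).ne_zero).mpr (prime_span_nat hl)

lemma span_ne_bot {l : ℕ} (hl : l.Prime) : Ideal.span {((l : ℕ) : 𝓞 ℚ)} ≠ ⊥ := by
  rw [Ne, Ideal.span_singleton_eq_bot]
  exact (prime_span_nat hl).ne_zero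

lemma eq_span {𝔭 : Ideal (𝓞 ℚ)} (h𝔭 : 𝔭.IsPrime) {l : ℕ} (hl : l.Prime)
    (h : ((l : ℕ) : 𝓞 ℚ) ∈ 𝔭) : 𝔭 = Ideal.span {((l : ℕ) : 𝓞 ℚ)} := by
  have hmax : (Ideal.span {((l : ℕ) : 𝓞 ℚ)}).IsMaximal :=
    (isPrime_span hl).isMaximal (span_ne_bot hl)
  exact (hmax.eq_of_le h𝔭.ne_top ((Ideal.span_singleton_le_iff_mem _).mpr h)).symm

lemma absNorm_span {l : ℕ} : Ideal.absNorm (Ideal.span {((l : ℕ) : 𝓞 ℚ)}) = l := by
  rw [Ideal.absNorm_span_natCast, RingOfIntegers.rank, Module.finrank_self, pow_one]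

/-- product of a function over the prime factors -/
def gv {A : Type} [CommGroup A] (f : ℕ → A) (n : ℕ) : A := (n.primeFactorsList.map f).prod

variable {A : Type} [CommGroup A]

lemma gv_one (f : ℕ → A) : gv f 1 = 1 := by simp [gv]

lemma gv_mul (f : ℕ → A) {m n : ℕ} (hm : m ≠ 0) (hn : n ≠ 0) :
    gv f (m * n) = gv f m * gv f n := by
  have h := (Nat.perm_primeFactorsList_mul hm hn).map f
  rw [gv, h.prod_eq, List.map_append, List.prod_append]
  rfl

lemma gv_prime (f : ℕ → A) {l : ℕ} (hl : l.Prime) : gv f l = f l := by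
  simp [gv, Nat.primeFactorsList_prime hl]

lemma prod_normalizedFactors (g : Ideal (𝓞 ℚ) → A) (n : ℕ) (hn : n ≠ 0) :
    ((UniqueFactorizationMonoid.normalizedFactors (Ideal.span {((n : ℕ) : 𝓞 ℚ)})).map g).prod =
      gv (fun l => g (Ideal.span {((l : ℕ) : 𝓞 ℚ)})) n := by
  induction n using Nat.recOnMul with
  | zero => exact absurd rfl hn
  | one =>
    rw [gv_one, Nat.cast_one, Ideal.span_singleton_one, ← Ideal.one_eq_top,
      UniqueFactorizationMonoid.normalizedFactors_one, Multiset.map_zero, Multiset.prod_zero]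
  | prime p hp =>
    rw [gv_prime _ hp]
    have hirr : Irreducible (Ideal.span {((p : ℕ) : 𝓞 ℚ)}) := by
      have := (Ideal.prime_iff_isPrime (span_ne_bot hp)).mpr (isPrime_span hp)
      exact this.irreducible
    rw [UniqueFactorizationMonoid.normalizedFactors_irreducible hirr, normalize_eq,
      Multiset.map_singleton, Multiset.prod_singleton]
  | mul a b iha ihb =>
    have ha : a ≠ 0 := fun h => hn (by simp [h])
    have hb : b ≠ 0 := fun h => hn (by simp [h])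
    have hna : Ideal.span {((a : ℕ) : 𝓞 ℚ)} ≠ 0 := by
      rw [Ne, Ideal.zero_eq_bot, Ideal.span_singleton_eq_bot]
      exact_mod_cast ha
    have hnb : Ideal.span {((b : ℕ) : 𝓞 ℚ)} ≠ 0 := by
      rw [Ne, Ideal.zero_eq_bot, Ideal.span_singleton_eq_bot]
      exact_mod_cast hb
    rw [gv_mul _ ha hb, ← iha ha, ← ihb hb, Nat.cast_mul, ← Ideal.span_singleton_mul_span_singleton,
      UniqueFactorizationMonoid.normalizedFactors_mul hna hnb, Multiset.map_add,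
      Multiset.prod_add]

/-! ### Frobenius elements over `ℚ` -/

lemma frobK_of_isFrobQ {l : ℕ} (hl : l.Prime) {σ : GQ} (h : IsFrobQ l σ) :
    FrobK ℚ (Ideal.span {((l : ℕ) : 𝓞 ℚ)}) σ := by
  obtain ⟨P, hP, hlP, hpow⟩ := h
  refine ⟨P, hP, ?_, ?_⟩
  · apply eq_span (hP.comap _) hl
    rw [Ideal.mem_comap, map_natCast]
    exact hlP
  · rw [absNorm_span]
    exact hpow

/-- `recip` over `ℚ` in terms of integers. -/
lemma recipQ (AR : AR_statement) (χ : GQ →* A) (hχ : IsOpen (χ.ker : Set GQ))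
    (F : ℕ → GQ) (hF : ∀ l : ℕ, l.Prime → IsFrobQ l (F l)) :
    ∃ M : ℕ, 0 < M ∧ ∀ n : ℕ, 0 < n → (M : ℤ) ∣ (n : ℤ) - 1 → gv (fun l => χ (F l)) n = 1 := by
  obtain ⟨M, hM, -, h⟩ := recip (K := ℚ) AR (by rw [Module.finrank_self]; norm_num) χ hχ
  refine ⟨M, hM, fun n hn hdvd => ?_⟩
  have h1 := h (fun 𝔭 => F (Ideal.absNorm 𝔭)) (by
    intro 𝔭 h𝔭 hne
    obtain ⟨p, k, hp, hk, hp𝔭, hN, -⟩ := exists_char 𝔭 h𝔭 hne
    obtain rfl := eq_span h𝔭 hp hp𝔭
    rw [absNorm_span]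
    exact frobK_of_isFrobQ hp (hF p hp)) ((n : ℕ) : 𝓞 ℚ) (by exact_mod_cast hn.ne') (by
      rw [Ideal.mem_span_singleton]
      obtain ⟨k, hk⟩ := hdvd
      refine ⟨(k : 𝓞 ℚ), ?_⟩
      have := congrArg (fun z : ℤ => (z : 𝓞 ℚ)) hk
      push_cast at this ⊢
      exact this) (by
      intro σ
      have : σ (((n : ℕ) : 𝓞 ℚ) : ℚ) = (n : ℝ) := by
        have h2 : (((n : ℕ) : 𝓞 ℚ) : ℚ) = (n : ℚ) := map_natCast (algebraMap (𝓞 ℚ) ℚ) n
        rw [h2, map_natCast]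
      rw [this]
      exact_mod_cast hn)
  rw [prod_normalizedFactors _ n hn.ne'] at h1
  simpa only [absNorm_span] using h1

/-! ### roots of unity -/

lemma eq_one_of_mem {P : Ideal Zb} (hP : P.IsPrime) {l M : ℕ} (hlP : (l : Zb) ∈ P)
    (hlM : Nat.Coprime l M) {η : Zb} (hη : η ^ M = 1) (hmem : η - 1 ∈ P) : η = 1 := by
  by_contra hne
  have h1 : (∑ i ∈ Finset.range M, η ^ i) = 0 := by
    have h2 := geom_sum_mul η M
    rw [hη, sub_self] at h2
    rcases mul_eq_zero.mp h2 with h3 | h3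
    · exact h3
    · exact absurd (sub_eq_zero.mp h3) hne
  have h4 : (M : Zb) ∈ P := by
    have h5 : Ideal.Quotient.mk P η = 1 := by
      rw [← map_one (Ideal.Quotient.mk P), Ideal.Quotient.eq]
      exact hmem
    have h6 := congrArg (Ideal.Quotient.mk P) h1
    rw [map_sum, map_zero] at h6
    simp only [map_pow, h5, one_pow, Finset.sum_const, Finset.card_range, nsmul_eq_mul,
      mul_one] at h6
    rw [← Ideal.Quotient.eq_zero_iff_mem, map_natCast]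
    exact h6
  apply hP.ne_top
  rw [Ideal.eq_top_iff_one]
  obtain ⟨a, b, hab⟩ := Nat.isCoprime_iff_coprime.mpr hlM
  have h3 : (1 : Zb) = (a : Zb) * (l : Zb) + (b : Zb) * (M : Zb) := by
    have := congrArg (fun z : ℤ => (z : Zb)) hab
    push_cast at this
    exact this.symm
  rw [h3]
  exact P.add_mem (P.mul_mem_left _ hlP) (P.mul_mem_left _ h4)

/-- Frobenius acts on roots of unity by the `l`-th power. -/
lemma frob_zeta {M l : ℕ} (hM : 0 < M) (hlM : Nat.Coprime l M) {ζ : Qb}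
    (hζ : ζ ^ M = 1) {σ : GQ} (h : IsFrobQ l σ) : σ ζ = ζ ^ l := by
  obtain ⟨P, hP, hlP, hpow⟩ := h
  have hint : IsIntegral ℤ ζ := IsIntegral.of_pow hM (by rw [hζ]; exact isIntegral_one)
  obtain ⟨z, rfl⟩ : ∃ z : Zb, (z : Qb) = ζ := ⟨⟨ζ, hint⟩, rfl⟩
  have hz : z ^ M = 1 := by
    apply NumberField.RingOfIntegers.ext
    simpa using hζ
  rw [powAt_iff] at hpow
  have h1 := hpow z
  have h2 : (σ • z) ^ M = 1 := by
    rw [← smul_pow', hz, smul_one]
  have h3 : (σ • z) * z ^ (l * (M - 1)) = 1 := by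
    apply eq_one_of_mem hP hlP hlM
    · rw [mul_pow, h2, ← pow_mul, mul_comm _ M, pow_mul, hz, one_pow, one_mul]
    · have h4 : (σ • z) * z ^ (l * (M - 1)) - 1 = (σ • z - z ^ l) * z ^ (l * (M - 1)) := by
        rw [sub_mul, ← pow_add]
        congr 1
        have h5 : l + l * (M - 1) = M * l := by
          obtain ⟨k, rfl⟩ : ∃ k, M = k + 1 := ⟨M - 1, by omega⟩
          simp only [Nat.add_sub_cancel]
          ring
        rw [h5, pow_mul, hz, one_pow]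
      rw [h4]
      exact P.mul_mem_right _ h1
  have h6 : σ • z = z ^ l := by
    have h7 : z ^ (l * (M - 1)) * z ^ l = 1 := by
      rw [← pow_add]
      have h5 : l * (M - 1) + l = M * l := by
        obtain ⟨k, rfl⟩ : ∃ k, M = k + 1 := ⟨M - 1, by omega⟩
        simp only [Nat.add_sub_cancel]
        ring
      rw [h5, pow_mul, hz, one_pow]
    calc σ • z = (σ • z) * (z ^ (l * (M - 1)) * z ^ l) := by rw [h7, mul_one]
      _ = ((σ • z) * z ^ (l * (M - 1))) * z ^ l := by rw [mul_assoc]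
      _ = z ^ l := by rw [h3, one_mul]
  have h8 := congrArg (fun w : Zb => (w : Qb)) h6
  simpa [coe_smul'] using h8

lemma conj_zeta {M : ℕ} (hM : 0 < M) {ζ : Qb} (hζ : ζ ^ M = 1) {c : GQ} (hc : IsConjQ c) :
    c ζ * ζ = 1 := by
  obtain ⟨φ, hφ⟩ := hc
  apply φ.injective
  rw [map_mul, hφ, map_one, mul_comm, Complex.mul_conj]
  have h1 : (φ ζ) ^ M = 1 := by rw [← map_pow, hζ, map_one]
  have h2 : ‖φ ζ‖ = 1 := Complex.norm_eq_one_of_pow_eq_one h1 hM.ne'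
  rw [Complex.normSq_eq_norm_sq, h2]
  norm_num

lemma conj_sq {c : GQ} (hc : IsConjQ c) : c * c = 1 := by
  obtain ⟨φ, hφ⟩ := hc
  ext x
  apply φ.injective
  rw [AlgEquiv.mul_apply, hφ, hφ, Complex.conj_conj]
  rfl

lemma autToPow_eq {M : ℕ} [NeZero M] {ζ : Qb} (hζ : IsPrimitiveRoot ζ M) {σ : GQ} {k : ℕ}
    (h : σ ζ = ζ ^ k) : ((hζ.autToPow ℚ σ : (ZMod M)ˣ) : ZMod M) = (k : ZMod M) := by
  have hM : 0 < M := Nat.pos_of_neZero M
  have h2 := hζ.autToPow_spec ℚ σ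
  rw [h] at h2
  have h3 : ζ ^ k = ζ ^ (k % M) := by
    conv_lhs => rw [← Nat.mod_add_div k M, pow_add, pow_mul, hζ.pow_eq_one, one_pow, mul_one]
  rw [h3] at h2
  have h4 := hζ.pow_inj (ZMod.val_lt _) (Nat.mod_lt _ hM) h2
  rw [← ZMod.natCast_zmod_val ((hζ.autToPow ℚ σ : (ZMod M)ˣ) : ZMod M), h4, ZMod.natCast_mod]

lemma isOpen_autToPow {M : ℕ} [NeZero M] {ζ : Qb} (hζ : IsPrimitiveRoot ζ M) :
    IsOpen ((hζ.autToPow ℚ : GQ →* (ZMod M)ˣ).ker : Set GQ) := by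
  have h := stabilizer_isOpen_of_isIntegral (K := ℚ) (L := Qb) ζ
  apply Subgroup.isOpen_mono (H₁ := MulAction.stabilizer GQ ζ) _ h
  intro σ hσ
  rw [MonoidHom.mem_ker]
  have h1 : σ ζ = ζ := hσ
  apply Units.ext
  rw [autToPow_eq hζ (k := 1) (by rw [h1, pow_one])]
  simp

/-- The subgroup of all `(∏ χ(F l), n)`. -/
def subY {M : ℕ} (hM : 0 < M) (f : ℕ → A)
    (hf : ∀ n : ℕ, 0 < n → (M : ℤ) ∣ (n : ℤ) - 1 → gv f n = 1) : Subgroup (A × (ZMod M)ˣ) where
  carrier := {y | ∃ n : ℕ, 0 < n ∧ (n : ZMod M) = y.2 ∧ gv f n = y.1}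
  one_mem' := ⟨1, one_pos, by simp, by simp [gv_one]⟩
  mul_mem' := by
    rintro x y ⟨m, hm, hm2, hm3⟩ ⟨n, hn, hn2, hn3⟩
    refine ⟨m * n, Nat.mul_pos hm hn, by simp [hm2, hn2], ?_⟩
    rw [gv_mul f hm.ne' hn.ne', hm3, hn3]
    rfl
  inv_mem' := by
    rintro x ⟨m, hm, hm2, hm3⟩
    have : NeZero M := ⟨hM.ne'⟩
    let n : ℕ := ((x.2⁻¹ : (ZMod M)ˣ) : ZMod M).val + M
    have hn : 0 < n := by omega
    have hn2 : (n : ZMod M) = ((x.2⁻¹ : (ZMod M)ˣ) : ZMod M) := by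
      simp [n]
    refine ⟨n, hn, hn2, ?_⟩
    have h1 : gv f (m * n) = 1 := by
      apply hf _ (Nat.mul_pos hm hn)
      rw [← ZMod.intCast_zmod_eq_zero_iff_dvd]
      push_cast
      rw [hm2, hn2, Units.mul_inv, sub_self]
    rw [gv_mul f hm.ne' hn.ne', hm3] at h1
    exact (inv_eq_of_mul_eq_one_right h1).symm

/-- A finite-index version of the Chebotarev-free argument: a character of `GQ` with open kernel
that is trivial on some Frobenius at every prime of `Zb` outside a finite set is trivial. -/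
lemma char_eq_one (FG : FG_statement) (χ : GQ →* A) (hχ : IsOpen (χ.ker : Set GQ))
    (S : Finset ℕ) (h : ∀ p : ℕ, p.Prime → p ∉ S → ∀ σ : GQ, IsFrobQ p σ → χ σ = 1) (c : GQ) :
    χ c = 1 := by
  obtain ⟨L, _, _, i1, i2, i3, hgal, hcomm, res, χL, hsurj, hres, hχL, hone⟩ :=
    exists_level ℚ χ hχ
  obtain rfl : i1 = DivisionRing.toRatAlgebra := Subsingleton.elim _ _
  have h1 : Module.finrank ℚ L = 1 := by
    apply FG L hgal hcomm
    refine ⟨S, fun p hp hpS P hP hpP x => ?_⟩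
    obtain ⟨Q, hQ, hQP⟩ := exists_over (K := L) P
    have hpQ : (p : Zb) ∈ Q := by
      rw [← hQP, Ideal.mem_comap, map_natCast] at hpP
      exact hpP
    have hQ0 : ((p : ℕ) : 𝓞 ℚ) ∈ Q.comap (algebraMap (𝓞 ℚ) Zb) := by
      rw [Ideal.mem_comap, map_natCast]
      exact hpQ
    have hQ1 : (Q.comap (algebraMap (𝓞 ℚ) Zb)).IsPrime := inferInstance
    obtain ⟨τ, hτ⟩ := exists_pow_lift ℚ Q p 1 hp hpQ 1 (by
      intro y
      rw [one_smul, pow_one, ← map_pow, ← map_sub, ← Ideal.mem_comap]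
      obtain ⟨q, k, -, -, hq, hN, hpow⟩ := exists_char (K := ℚ) _ hQ1 (by
        rw [eq_span hQ1 hp hQ0]
        exact span_ne_bot hp)
      rw [eq_span hQ1 hp hQ0, absNorm_span] at hpow
      rw [eq_span hQ1 hp hQ0]
      have := (Ideal.span {((p : ℕ) : 𝓞 ℚ)}).neg_mem (hpow y)
      simpa using this)
    have h2 : χ (1 * toGQ τ) = 1 := h p hp hpS _ ⟨Q, hQ, hpQ, by rwa [pow_one] at hτ⟩
    have h3 := hone _ h2
    rw [pow_one] at hτ
    have h4 := (powAt_iff.mp hτ) (algebraMap (𝓞 L) Zb x)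
    have h5 : (1 * toGQ τ : GQ) • (algebraMap (𝓞 L) Zb x) = algebraMap (𝓞 L) Zb x := by
      apply NumberField.RingOfIntegers.ext
      rw [coe_smul', coe_algebraMap, ← hres, h3]
      rfl
    rw [h5, ← map_pow, ← map_sub, ← Ideal.mem_comap, hQP] at h4
    have := P.neg_mem h4
    simpa using this
  have h2 : res c = 1 := by
    have h3 : Subsingleton (L ≃ₐ[ℚ] L) := by
      have h4 := IsGalois.card_aut_eq_finrank ℚ L
      rw [h1] at h4
      exact (Nat.card_eq_one_iff_unique.mp h4).1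
    exact Subsingleton.elim _ _
  rw [← hχL, h2, map_one]

lemma mem_of_frob (FG : FG_statement) (Θ : GQ →* A) (hΘ : IsOpen (Θ.ker : Set GQ))
    (Y : Subgroup A) (S : Finset ℕ)
    (h : ∀ p : ℕ, p.Prime → p ∉ S → ∀ σ : GQ, IsFrobQ p σ → Θ σ ∈ Y) (c : GQ) : Θ c ∈ Y := by
  rw [← QuotientGroup.eq_one_iff]
  let χ' : GQ →* A ⧸ Y := (QuotientGroup.mk' Y).comp Θ
  have hop : IsOpen (χ'.ker : Set GQ) := by
    apply Subgroup.isOpen_mono (H₁ := Θ.ker) (H₂ := χ'.ker)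
    · intro σ hσ
      rw [MonoidHom.mem_ker, MonoidHom.comp_apply, hσ, map_one]
    · exact hΘ
  exact char_eq_one FG χ' hop S (fun p hp hpS σ hσ =>
    (QuotientGroup.eq_one_iff _).mpr (h p hp hpS σ hσ)) c

end H954

open H954 in
theorem KW (AR : AR_statement) (FG : FG_statement) : KW_statement := by
  intro A _ χ hχ ⟨S, hS⟩ c hc F hF
  obtain ⟨M1, hM1, hrec⟩ := recipQ AR χ hχ F hF
  -- the modulus
  let B : ℕ := ∏ p ∈ S.filter Nat.Prime, p
  have hB : 0 < B := Finset.prod_pos fun p hp => (Finset.mem_filter.mp hp).2.pos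
  obtain ⟨M, hMdef⟩ : ∃ M, M = M1 * B := ⟨_, rfl⟩
  have hM : 0 < M := hMdef ▸ Nat.mul_pos hM1 hB
  have : NeZero M := ⟨hM.ne'⟩
  have hrecM : ∀ n : ℕ, 0 < n → (M : ℤ) ∣ (n : ℤ) - 1 → gv (fun l => χ (F l)) n = 1 :=
    fun n hn hd => hrec n hn (dvd_trans (by simp [hMdef]) hd)
  obtain ⟨ζ, hζ⟩ : ∃ ζ : Qb, IsPrimitiveRoot ζ M := by
    have : HasEnoughRootsOfUnity Qb M := inferInstance
    exact HasEnoughRootsOfUnity.exists_primitiveRoot Qb M
  let cyc : GQ →* (ZMod M)ˣ := hζ.autToPow ℚ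
  let Θ : GQ →* A × (ZMod M)ˣ := χ.prod cyc
  let Y := subY hM (fun l => χ (F l)) hrecM
  have hΘ : ∀ p : ℕ, p.Prime → Nat.Coprime p M → ∀ σ : GQ, IsFrobQ p σ → Θ σ ∈ Y := by
    intro p hp hpM σ hσ
    have hpS : p ∉ S := by
      intro h
      have h1 : p ∣ M := hMdef ▸ dvd_mul_of_dvd_right (Finset.dvd_prod_of_mem _
        (Finset.mem_filter.mpr ⟨h, hp⟩)) _
      exact hp.one_lt.ne' (Nat.eq_one_of_dvd_coprimes hpM dvd_rfl h1)
    refine ⟨p, hp.pos, ?_, ?_⟩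
    · exact (autToPow_eq hζ (frob_zeta hM hpM hζ.pow_eq_one hσ)).symm
    · rw [gv_prime _ hp]
      change χ (F p) = χ σ
      apply frobK_unique (K := ℚ) χ (Ideal.span {((p : ℕ) : 𝓞 ℚ)}) _
        (frobK_of_isFrobQ hp (hF p hp)) (frobK_of_isFrobQ hp hσ)
      intro P hP hP2 τ hτ
      refine hS p hp hpS P hP ?_ τ hτ
      have : ((p : ℕ) : 𝓞 ℚ) ∈ P.comap (algebraMap (𝓞 ℚ) Zb) := by
        rw [hP2]
        exact Ideal.mem_span_singleton_self _
      rw [Ideal.mem_comap, map_natCast] at this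
      exact this
  have hcY : Θ c ∈ Y := by
    refine mem_of_frob FG Θ ?_ Y M.primeFactors ?_ c
    · apply Subgroup.isOpen_mono (H₁ := χ.ker ⊓ cyc.ker) (H₂ := Θ.ker)
      · intro σ hσ
        exact Prod.ext hσ.1 hσ.2
      · exact hχ.inter (isOpen_autToPow hζ)
    · intro p hp hpM σ hσ
      have hpM' : Nat.Coprime p M := by
        rw [Nat.Prime.coprime_iff_not_dvd hp]
        intro h
        exact hpM (Nat.mem_primeFactors.mpr ⟨hp, h, hM.ne'⟩)
      exact hΘ p hp hpM' σ hσ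
  obtain ⟨m, hm, hm2, hm3⟩ := hcY
  change (m : ZMod M) = ((cyc c : (ZMod M)ˣ) : ZMod M) at hm2
  change gv (fun l => χ (F l)) m = χ c at hm3
  have hcyc : ((cyc c : (ZMod M)ˣ) : ZMod M) = -1 := by
    have h1 : c ζ = ζ ^ (M - 1) := by
      have h2 := conj_zeta hM hζ.pow_eq_one hc
      have h3 : ζ * ζ ^ (M - 1) = 1 := by
        rw [← pow_succ', Nat.sub_add_cancel hM, hζ.pow_eq_one]
      calc c ζ = c ζ * (ζ * ζ ^ (M - 1)) := by rw [h3, mul_one]
        _ = (c ζ * ζ) * ζ ^ (M - 1) := by rw [mul_assoc]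
        _ = _ := by rw [h2, one_mul]
    rw [autToPow_eq hζ h1, Nat.cast_sub hM]
    simp
  refine ⟨M, hM, fun n hn hdvd => ?_⟩
  change gv (fun l => χ (F l)) n = χ c
  have h1 : gv (fun l => χ (F l)) (m * n) = 1 := by
    apply hrecM _ (Nat.mul_pos hm hn)
    rw [← ZMod.intCast_zmod_eq_zero_iff_dvd]
    push_cast
    have h2 : (n : ZMod M) = -1 := by
      have h3 : ((n + 1 : ℕ) : ZMod M) = 0 := (ZMod.natCast_eq_zero_iff _ _).mpr hdvd
      push_cast at h3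
      exact eq_neg_of_add_eq_zero_left h3
    rw [hm2, hcyc, h2]
    ring
  rw [gv_mul _ hm.ne' hn.ne', hm3] at h1
  have h2 : χ c * χ c = 1 := by rw [← map_mul, conj_sq hc, map_one]
  exact mul_left_cancel (h1.trans h2.symm)

end

end Vale.Agent.P022
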