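import Vale.Agent.P022.H954.Hecke
import Vale.Agent.P022.H23.Slash
import Vale.Agent.P022.H436.Good
import Vale.Agent.P022.H23.Pack

/-!
# P022 / P9: weight one forms of real quadratic fields
-/

open Complex MeasureTheory Set CongruenceSubgroup NumberField
open UpperHalfPlane hiding I
open scoped Real ComplexConjugate Interval MatrixGroups ModularForm NumberTheorySymbols
open Vale.Agent.P267.H775 (toR toR_apply chr qf exists_bound)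
open Vale.Agent.P022.H23
open Vale.Agent.P022.H436 (Good)

namespace Vale.Agent.P022.H954

noncomputable section

variable {Q : BQ} {F : Fac Q}

/-- packaging of a modular form of weight one -/
def Pack : Prop := ∀ (N : ℕ) (g : ℍ → ℂ), (∀ γ ∈ Gamma1 N, g ∣[(1 : ℤ)] γ = g) →
  (∀ γ : SL(2, ℤ), ∃ (h : ℕ) (c : ℕ → ℂ), 0 < h ∧
    ∀ τ : ℍ, HasSum (fun n : ℕ => c n * cexp (2 * π * I * n * τ / h)) ((g ∣[(1 : ℤ)] γ) τ)) →
  ∃ G : MF N 1, (G : ℍ → ℂ) = g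

theorem pack : Pack := by
  intro N g h1 h2
  refine exists_MF h1 fun γ => ?_
  obtain ⟨h, c, -, hc⟩ := h2 γ
  exact ⟨h, c, hc⟩

lemma GH_Gamma1 {M : ℕ} (hM : 0 < M) (ε : ℝ) {f : (Fin 2 → ℤ) → ℂ} (hf : PerM M f)
    {γ : SL(2, ℤ)} (hγ : γ ∈ Gamma1 (4 * Q.det.natAbs * M ^ 2)) :
    GH F ε f ∣[(1 : ℤ)] γ = GH F ε f := by
  funext τ
  rw [GH_slash]
  unfold GH
  congr 2
  funext s
  have hpos : Real.exp (Real.log ε * s) ≠ 0 := (Real.exp_pos _).ne'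
  have h := (F.isKer hpos).slash_Gamma1 F.det_ne hM hf hγ
  exact congrFun h τ

theorem GH_good (hP : Pack) {M : ℕ} (hM : 0 < M) {ε : ℝ} (A : UAct F M ε) (hε : 1 < ε)
    (hQ : ∀ x : Fin 2 → ℤ, x ≠ 0 → Q.q x ≠ 0) {f : (Fin 2 → ℤ) → ℂ} (hf : PerM M f)
    (χ : ℕ → ℂ) (hχ : ∀ d : ℕ, ∀ x, f ((d : ℤ) • x) = χ d * f x) :
    Good (4 * Q.det.natAbs * M ^ 2) (fun d => (J(-Q.det | d) : ℂ) * χ d)
      (fun n => cg F ε 1 1 1 f n) := by
  have hdet := F.det_ne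
  have hh : 0 < M ^ 2 * Q.det.natAbs := Nat.mul_pos (pow_pos hM 2) (Int.natAbs_pos.2 hdet)
  obtain ⟨G, hG⟩ := hP (4 * Q.det.natAbs * M ^ 2) (GH F ε f) (fun γ hγ => GH_Gamma1 hM ε hf hγ)
    (fun γ => by
      obtain ⟨φ, -, h⟩ := GH_cusp hM A hε hQ hf γ
      exact ⟨_, _, hh, h⟩)
  refine ⟨G, ?_, ?_, ?_⟩
  · intro τ
    rw [hG]
    exact GH_hasSum hM A hε hQ hf τ
  · intro γ hγ d hd
    rw [hG]
    have hc : 4 * (M : ℤ) ^ 2 * Q.det ∣ γ 1 0 := by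
      have h1 := gamma0_dvd hγ
      refine dvd_trans ?_ h1
      push_cast
      rw [show 4 * (M : ℤ) ^ 2 * Q.det = 4 * Q.det * (M : ℤ) ^ 2 by ring]
      exact mul_dvd_mul_right (mul_dvd_mul_left 4 ((dvd_abs _ _).2 dvd_rfl)) _
    rw [GH_gamma hM ε hf hc hd]
    funext τ
    simp only [Pi.smul_apply, smul_eq_mul]
    unfold GH Tf
    have : ∀ s : ℝ, (∑' x : Fin 2 → ℤ, f ((d : ℤ) • x) *
        F.ker (Real.exp (Real.log ε * s)) (τ : ℂ) (toR x)) =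
        χ d * ∑' x : Fin 2 → ℤ, f x * F.ker (Real.exp (Real.log ε * s)) (τ : ℂ) (toR x) := by
      intro s
      rw [← tsum_mul_left]
      refine tsum_congr fun x => ?_
      rw [hχ, mul_assoc]
    simp_rw [this, intervalIntegral.integral_const_mul]
    ring
  · intro v hv γ
    rw [hG]
    obtain ⟨φ, hφ, h⟩ := GH_cusp hM A hε hQ hf γ
    obtain ⟨C, hC⟩ : ∃ C, ∀ y, v (φ y) ≤ C := by
      obtain ⟨C, hC⟩ := (hφ.image v).bddAbove
      exact ⟨C, fun y => hC ⟨φ y, ⟨y, rfl⟩, rfl⟩⟩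
    exact ⟨C, M ^ 2 * Q.det.natAbs, _, hh, fun n => v_cg hv hC F ε _ _ _ n, h⟩

/-- `cf = cg` -/
lemma cf_eq_cg (F : Fac Q) (ε : ℝ) (hQ : ∀ x : Fin 2 → ℤ, x ≠ 0 → Q.q x ≠ 0)
    (f : (Fin 2 → ℤ) → ℂ) (n : ℕ) : cf F ε f n = cg F ε 1 1 1 f n := by
  unfold cf cg
  have hset : {x : Fin 2 → ℤ | x ∈ RR F ε ∧ Q.q x = (n : ℤ)} = SS F ε 1 1 1 n := by
    ext y
    simp only [SS, RR, RD, Set.mem_ofPred_eq, one_mul]
    constructor
    · rintro ⟨⟨-, h1, h2⟩, h3⟩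
      exact ⟨⟨h1, h2⟩, h3⟩
    · rintro ⟨⟨h1, h2⟩, h3⟩
      refine ⟨⟨?_, h1, h2⟩, h3⟩
      have hy : y ≠ 0 := RD_ne (F := F) (ε := ε) (c1 := 1) (c2 := 1) (by
        simp only [RD, Set.mem_ofPred_eq, one_mul]; exact ⟨h1, h2⟩)
      have := hQ y hy
      omega
  rw [hset]
  simp only [one_mul]

/-- P9 -/
theorem P9_of (hA : P9_arith_statement) (K : Type) [Field K] [NumberField K]
    (hK : Module.finrank ℚ K = 2) (σ : K →+* ℝ) (w : K → ℂ) (hw : ∀ x, w x = if 0 < σ x then 1 else -1)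
    (M0 : ℕ) (hM0 : 0 < M0) (ξ : Ideal (𝓞 K) →*₀ ℂ) (hξ : IsRay ξ M0 w) :
    ∃ (g : MF (4 * (discr K).natAbs * M0 ^ 2) 1) (a0 : ℂ),
      HasQ g (fun n => if n = 0 then a0 else coef ξ n) ∧
      (∀ γ ∈ Gamma0 (4 * (discr K).natAbs * M0 ^ 2), ∀ d : ℕ, γ 1 1 = d →
        (g : ℍ → ℂ) ∣[(1 : ℤ)] γ = neben ξ d • (g : ℍ → ℂ)) ∧
      ∀ v : AbsoluteValue ℂ ℝ, (∀ x y : ℂ, v (x + y) ≤ max (v x) (v y)) → VBdd v 1 g := by
  obtain ⟨r, Q, F, ε, A, f, c, hε, hdet, hQ, hper, hmul, hcoef⟩ := hA K hK σ w hw M0 hM0 ξ hξ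
  have hgood : ∀ i, Good (4 * (discr K).natAbs * M0 ^ 2) (neben ξ)
      (fun n => c i * cg (F i) ε 1 1 1 (f i) n) := by
    intro i
    have h1 := GH_good pack hM0 (A i) hε (hQ i) (f := f i) (hper i) (fun d => ξ (idl K d))
      (fun d x => hmul i d x)
    have h2 : (Q i).det.natAbs = (discr K).natAbs := by rw [hdet, Int.natAbs_neg]
    have h3 : (fun d : ℕ => (J(-(Q i).det | d) : ℂ) * ξ (idl K d)) = neben ξ := by
      funext d
      unfold neben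
      rw [hdet, neg_neg]
    rw [h2, h3] at h1
    exact h1.smul (c i)
  obtain ⟨g, hg1, hg2, hg3⟩ := Good.sum Finset.univ (fun i n => c i * cg (F i) ε 1 1 1 (f i) n)
    (fun i _ => hgood i)
  refine ⟨g, ∑ i, c i * cg (F i) ε 1 1 1 (f i) 0, ?_, hg2, hg3⟩
  intro τ
  have h := hg1 τ
  refine hs_congr h fun n => ?_
  dsimp only
  by_cases hn : n = 0
  · rw [if_pos hn, hn]
  · rw [if_neg hn, hcoef n hn]
    congr 1
    refine Finset.sum_congr rfl fun i _ => ?_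
    rw [cf_eq_cg (F i) ε (hQ i)]

end

end Vale.Agent.P022.H954
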