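import Vale.Agent.P022.H954.Ker2
import Vale.Agent.P022.Iface

/-!
# P022 / P8-P9: interface between the arithmetic of a real quadratic field and Hecke's forms
-/

open Complex
open Vale.Agent.P267.H775 (toR)
open Vale.Agent.P022.H23 (BQ)
open NumberField

namespace Vale.Agent.P022.H954

noncomputable section

/-- `U` acts on `ℤ²` as multiplication by a unit `ε` of norm one, trivially mod `M² det Q`. -/
structure UAct {Q : BQ} (F : Fac Q) (M : ℕ) (ε : ℝ) where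
  U : (Fin 2 → ℤ) ≃+ (Fin 2 → ℤ)
  hl : ∀ x, F.l (toR (U x)) = ε * F.l (toR x)
  hm : ∀ x, F.m (toR (U x)) = ε⁻¹ * F.m (toR x)
  hc : ∀ x, ∃ y, U x = x + ((M : ℤ) ^ 2 * Q.det) • y

/-- the sign as a complex number -/
def sg (r : ℝ) : ℂ := if 0 < r then 1 else -1

/-- representatives of the vectors with `Q > 0` modulo `U` -/
def RR {Q : BQ} (F : Fac Q) (ε : ℝ) : Set (Fin 2 → ℤ) :=
  {x | 0 < Q.q x ∧ |F.m (toR x)| ≤ |F.l (toR x)| ∧ |F.l (toR x)| < ε ^ 2 * |F.m (toR x)|}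

/-- the coefficients of Hecke's form attached to `f` -/
def cf {Q : BQ} (F : Fac Q) (ε : ℝ) (f : (Fin 2 → ℤ) → ℂ) (n : ℕ) : ℂ :=
  ∑ᶠ x ∈ {x : Fin 2 → ℤ | x ∈ RR F ε ∧ Q.q x = (n : ℤ)}, f x * sg (F.l (toR x))

/-- P9, arithmetic part: the coefficients of a ray class character of mixed signature of a real
quadratic field as sums over vectors of finitely many binary forms. -/
def P9_arith_statement : Prop :=
  ∀ (K : Type) [Field K] [NumberField K], Module.finrank ℚ K = 2 →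
    ∀ (σ : K →+* ℝ) (w : K → ℂ), (∀ x, w x = if 0 < σ x then 1 else -1) →
    ∀ (M0 : ℕ), 0 < M0 → ∀ ξ : Ideal (𝓞 K) →*₀ ℂ, IsRay ξ M0 w →
    ∃ (r : ℕ) (Q : Fin r → BQ) (F : ∀ i, Fac (Q i)) (ε : ℝ) (_ : ∀ i, UAct (F i) M0 ε)
      (f : Fin r → (Fin 2 → ℤ) → ℂ) (c : Fin r → ℂ),
      1 < ε ∧ (∀ i, (Q i).det = -discr K) ∧ (∀ i (x : Fin 2 → ℤ), x ≠ 0 → (Q i).q x ≠ 0) ∧
      (∀ i x y, f i (x + (M0 : ℤ) • y) = f i x) ∧
      (∀ i (d : ℕ) x, f i ((d : ℤ) • x) = ξ (idl K d) * f i x) ∧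
      ∀ n : ℕ, n ≠ 0 → coef ξ n = ∑ i, c i * cf (F i) ε (f i) n

end

end Vale.Agent.P022.H954
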