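import Vale.Agent.P022.H954.P9
import Vale.Agent.P022.H905.Arith

/-! # P022 / P9: weight one forms of real quadratic fields, final form -/

open NumberField CongruenceSubgroup UpperHalfPlane
open scoped MatrixGroups ModularForm

namespace Vale.Agent.P022.H954

/-- P9: the real half of `P5_statement`. -/
theorem P9 (K : Type) [Field K] [NumberField K]
    (hK : Module.finrank ℚ K = 2) (σ : K →+* ℝ) (w : K → ℂ) (hw : ∀ x, w x = if 0 < σ x then 1 else -1)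
    (M0 : ℕ) (hM0 : 0 < M0) (ξ : Ideal (𝓞 K) →*₀ ℂ) (hξ : IsRay ξ M0 w) :
    ∃ (g : MF (4 * (discr K).natAbs * M0 ^ 2) 1) (a0 : ℂ),
      HasQ g (fun n => if n = 0 then a0 else coef ξ n) ∧
      (∀ γ ∈ Gamma0 (4 * (discr K).natAbs * M0 ^ 2), ∀ d : ℕ, γ 1 1 = d →
        (g : ℍ → ℂ) ∣[(1 : ℤ)] γ = neben ξ d • (g : ℍ → ℂ)) ∧
      ∀ v : AbsoluteValue ℂ ℝ, (∀ x y : ℂ, v (x + y) ≤ max (v x) (v y)) → VBdd v 1 g :=
  P9_of H905.P9_arith K hK σ w hw M0 hM0 ξ hξ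

end Vale.Agent.P022.H954
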