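import Vale.Agent.P022.H954.Unf
import Vale.Agent.P022.H23.Tr2

/-!
# P022 / P8: expansions of the integrated theta functions
-/

open Complex MeasureTheory Set
open scoped Real ComplexConjugate Interval
open Vale.Agent.P267.H775 (toR toR_apply chr qf exists_bound)
open Vale.Agent.P022.H23 (BQ Ker ee)

namespace Vale.Agent.P022.H954

noncomputable section

lemma hk_zero (z : ℂ) (t : ℝ) : hk z 0 0 t = 0 := by
  simp [hk]

lemma Fac.ker_hk {Q : BQ} (F : Fac Q) (t : ℝ) (z : ℂ) (x : Fin 2 → ℝ) :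
    F.ker t z x = hk z (F.l x) (F.m x) t := by
  unfold Fac.ker hk
  rw [F.l_mul_m]

/-- bound of the kernel, uniform in `t ∈ [1, ε]` -/
lemma norm_hk_bd {z : ℂ} (hz : 0 < z.im) {ε : ℝ} (hε : 1 < ε) {l m t : ℝ} (h1 : 1 ≤ t) (h2 : t ≤ ε) :
    ‖hk z l m t‖ ≤ √z.im * (1 + 1 / (π * z.im / 4)) *
      Real.exp (-π * (z.im / (2 * ε ^ 2)) * (l ^ 2 + m ^ 2)) := by
  rw [norm_hk]
  have ht : 0 < t := by linarith
  have hs : 0 < π * z.im / 4 := by positivity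
  have h3 := abs_le_exp_sq hs (l * t + m / t)
  have h4 : (l * t + m / t) ^ 2 ≤ 2 * ((l * t) ^ 2 + (m / t) ^ 2) := by
    nlinarith [sq_nonneg (l * t - m / t)]
  have h5 : (l ^ 2 + m ^ 2) / ε ^ 2 ≤ (l * t) ^ 2 + (m / t) ^ 2 := by
    have hε0 : 0 < ε := by linarith
    rw [div_le_iff₀ (by positivity)]
    have a1 : l ^ 2 ≤ (l * t) ^ 2 * ε ^ 2 := by
      have : 1 ≤ t ^ 2 * ε ^ 2 := by
        have b1 : 1 ≤ t ^ 2 := one_le_pow₀ h1
        have b2 : 1 ≤ ε ^ 2 := one_le_pow₀ hε.le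
        nlinarith
      calc l ^ 2 = l ^ 2 * 1 := by ring
        _ ≤ l ^ 2 * (t ^ 2 * ε ^ 2) := mul_le_mul_of_nonneg_left this (sq_nonneg l)
        _ = _ := by ring
    have a2 : m ^ 2 ≤ (m / t) ^ 2 * ε ^ 2 := by
      have : 1 ≤ ε ^ 2 / t ^ 2 := by
        rw [one_le_div (by positivity)]
        exact pow_le_pow_left₀ ht.le h2 2
      calc m ^ 2 = m ^ 2 * 1 := by ring
        _ ≤ m ^ 2 * (ε ^ 2 / t ^ 2) := mul_le_mul_of_nonneg_left this (sq_nonneg m)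
        _ = _ := by ring
    linarith
  calc √z.im * |l * t + m / t| * Real.exp (-(π * z.im * ((l * t) ^ 2 + (m / t) ^ 2)))
      ≤ √z.im * ((1 + 1 / (π * z.im / 4)) * Real.exp (π * z.im / 4 * (l * t + m / t) ^ 2)) *
        Real.exp (-(π * z.im * ((l * t) ^ 2 + (m / t) ^ 2))) := by
        refine mul_le_mul_of_nonneg_right (mul_le_mul_of_nonneg_left h3 (Real.sqrt_nonneg _))
          (Real.exp_pos _).le
    _ = √z.im * (1 + 1 / (π * z.im / 4)) * Real.exp (π * z.im / 4 * (l * t + m / t) ^ 2 +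
        -(π * z.im * ((l * t) ^ 2 + (m / t) ^ 2))) := by rw [Real.exp_add]; ring
    _ ≤ _ := by
        refine mul_le_mul_of_nonneg_left (Real.exp_le_exp.2 ?_) (by positivity)
        have h6 : π * z.im / 4 * (l * t + m / t) ^ 2 ≤ π * z.im / 4 * (2 * ((l * t) ^ 2 + (m / t) ^ 2)) :=
          mul_le_mul_of_nonneg_left h4 hs.le
        have h7 : π * z.im / 2 * ((l ^ 2 + m ^ 2) / ε ^ 2) ≤ π * z.im / 2 * ((l * t) ^ 2 + (m / t) ^ 2) :=
          mul_le_mul_of_nonneg_left h5 (by positivity)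
        have h8 : -π * (z.im / (2 * ε ^ 2)) * (l ^ 2 + m ^ 2) =
            -(π * z.im / 2 * ((l ^ 2 + m ^ 2) / ε ^ 2)) := by
          field_simp
        rw [h8]
        linarith

variable {Q : BQ} (F : Fac Q)

/-- summable majorant over the lattice -/
lemma exists_major {z : ℂ} (hz : 0 < z.im) {ε : ℝ} (hε : 1 < ε) {c1 c2 : ℝ} (hc1 : c1 ≠ 0)
    (hc2 : c2 ≠ 0) : ∃ u : (Fin 2 → ℤ) → ℝ, Summable u ∧ ∀ t, 1 ≤ t → t ≤ ε → ∀ y,
      ‖hk z (c1 * F.l (toR y)) (c2 * F.m (toR y)) t‖ ≤ u y := by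
  have hε0 : 0 < ε := by linarith
  set M : Matrix (Fin 2) (Fin 2) ℝ := !![c1 * F.l0, c1 * F.l1; c2 * F.m0, c2 * F.m1] with hM
  have hdet : M.det ≠ 0 := by
    rw [hM, Matrix.det_fin_two_of]
    have : c1 * F.l0 * (c2 * F.m1) - c1 * F.l1 * (c2 * F.m0) = c1 * c2 * F.dt := by
      unfold Fac.dt; ring
    rw [this]
    exact mul_ne_zero (mul_ne_zero hc1 hc2) F.hd
  obtain ⟨u, -, hu, hle⟩ := exists_bound M hdet 0 (z.im / (2 * ε ^ 2)) (by positivity)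
  refine ⟨fun y => √z.im * (1 + 1 / (π * z.im / 4)) * u y, hu.mul_left _, fun t h1 h2 y => ?_⟩
  refine (norm_hk_bd hz hε h1 h2).trans (mul_le_mul_of_nonneg_left ?_ (by positivity))
  have h3 := hle y 0 (by simp)
  rw [zero_add] at h3
  have h4 : qf M (toR y) = (c1 * F.l (toR y)) ^ 2 + (c2 * F.m (toR y)) ^ 2 := by
    simp only [qf, Fin.sum_univ_two, hM, Matrix.mulVec, dotProduct, Fac.l, Fac.m]
    simp
    ring
  rwa [h4] at h3

/-- nonzero vectors -/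
def NZ : Set (Fin 2 → ℤ) := {y | y ≠ 0}

lemma Fac.l_mul_m_int (y : Fin 2 → ℤ) : F.l (toR y) * F.m (toR y) = ((Q.q y : ℤ) : ℝ) := by
  rw [F.l_mul_m, BQ.q_toR]

lemma Fac.l_ne {y : Fin 2 → ℤ} (hy : Q.q y ≠ 0) : F.l (toR y) ≠ 0 := by
  intro h
  have := F.l_mul_m_int y
  rw [h, zero_mul] at this
  exact hy (by exact_mod_cast this.symm)

lemma Fac.m_ne {y : Fin 2 → ℤ} (hy : Q.q y ≠ 0) : F.m (toR y) ≠ 0 := by
  intro h
  have := F.l_mul_m_int y
  rw [h, mul_zero] at this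
  exact hy (by exact_mod_cast this.symm)

variable {F}

/-- the orbit structure of the action of a unit -/
def orb {M : ℕ} {ε : ℝ} (A : UAct F M ε) (hε : 1 < ε) (hQ : ∀ x : Fin 2 → ℤ, x ≠ 0 → Q.q x ≠ 0)
    {c1 c2 : ℝ} (hc1 : c1 ≠ 0) (hc2 : c2 ≠ 0) : Orb NZ where
  l y := c1 * F.l (toR (y : Fin 2 → ℤ))
  m y := c2 * F.m (toR (y : Fin 2 → ℤ))
  U := A.U.toEquiv.subtypeEquiv (fun y => by
    simp only [NZ, Set.mem_ofPred_eq]
    exact not_congr (EmbeddingLike.map_eq_zero_iff (f := A.U)).symm)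
  ε := ε
  hε := hε
  hl y := by
    change c1 * F.l (toR (A.U (y : Fin 2 → ℤ))) = _
    rw [A.hl]; ring
  hm y := by
    change c2 * F.m (toR (A.U (y : Fin 2 → ℤ))) = _
    rw [A.hm]; ring
  l0 y := mul_ne_zero hc1 (F.l_ne (hQ _ y.2))
  m0 y := mul_ne_zero hc2 (F.m_ne (hQ _ y.2))

/-- representatives of the orbits -/
def RD (F : Fac Q) (ε : ℝ) (c1 c2 : ℝ) : Set (Fin 2 → ℤ) :=
  {y | |c2 * F.m (toR y)| ≤ |c1 * F.l (toR y)| ∧ |c1 * F.l (toR y)| < ε ^ 2 * |c2 * F.m (toR y)|}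

lemma RD_ne {ε c1 c2 : ℝ} {y : Fin 2 → ℤ} (hy : y ∈ RD F ε c1 c2) : y ≠ 0 := by
  rintro rfl
  have h := hy.2
  have h0 : F.l (toR (0 : Fin 2 → ℤ)) = 0 := by simp [Fac.l]
  have h1 : F.m (toR (0 : Fin 2 → ℤ)) = 0 := by simp [Fac.m]
  rw [h0, h1] at h
  simp at h

/-- the integral of the theta functions over `t` as a sum over vectors -/
theorem hasSum_vec {M : ℕ} {ε : ℝ} (A : UAct F M ε) (hε : 1 < ε)
    (hQ : ∀ x : Fin 2 → ℤ, x ≠ 0 → Q.q x ≠ 0) {c1 c2 : ℝ} (hc1 : c1 ≠ 0) (hc2 : c2 ≠ 0)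
    {φ : (Fin 2 → ℤ) → ℂ} {B : ℝ} (hB : ∀ y, ‖φ y‖ ≤ B) (hU : ∀ y, φ (A.U y) = φ y)
    {z : ℂ} (hz : 0 < z.im) :
    HasSum ((RD F ε c1 c2).indicator fun y =>
        φ y * hv z (c1 * F.l (toR y)) (c2 * F.m (toR y)))
      (Real.log ε * ∫ s in (0 : ℝ)..1, ∑' y : Fin 2 → ℤ, φ y *
        hk z (c1 * F.l (toR y)) (c2 * F.m (toR y)) (Real.exp (Real.log ε * s))) := by
  obtain ⟨u, hu, hub⟩ := exists_major F hz hε hc1 hc2
  set O := orb A hε hQ hc1 hc2 with hO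
  have h1 := O.unfold hz (fun y : NZ => φ y) (fun y => hU y) (fun y : NZ => B * u y)
    ((hu.mul_left B).subtype _) (fun t ht1 ht2 y => by
      rw [norm_mul]
      have h2 := hub t ht1 ht2 (y : Fin 2 → ℤ)
      exact mul_le_mul (hB _) h2 (norm_nonneg _) ((norm_nonneg _).trans (hB y)))
  have h3 : ∀ s : ℝ, (∑' x : NZ, φ x * hk z (O.l x) (O.m x) (Real.exp (Real.log O.ε * s))) =
      ∑' y : Fin 2 → ℤ, φ y *
        hk z (c1 * F.l (toR y)) (c2 * F.m (toR y)) (Real.exp (Real.log ε * s)) := by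
    intro s
    refine tsum_subtype_eq_of_support_subset (s := NZ) (f := fun y : Fin 2 → ℤ => φ y *
        hk z (c1 * F.l (toR y)) (c2 * F.m (toR y)) (Real.exp (Real.log ε * s))) ?_
    intro y hy h0
    rw [Function.mem_support] at hy
    apply hy
    rw [h0]
    have e0 : F.l (toR (0 : Fin 2 → ℤ)) = 0 := by simp [Fac.l]
    have e1 : F.m (toR (0 : Fin 2 → ℤ)) = 0 := by simp [Fac.m]
    rw [e0, e1, mul_zero, mul_zero, hk_zero, mul_zero]
  simp_rw [h3] at h1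
  have hinj : Function.Injective (fun x : O.R => ((x : NZ) : Fin 2 → ℤ)) :=
    Subtype.val_injective.comp Subtype.val_injective
  refine (hinj.hasSum_iff ?_).1 (hs_congr h1 ?_)
  · intro y hy
    refine Set.indicator_of_notMem (fun hyR => hy ?_) _
    refine ⟨⟨⟨y, RD_ne hyR⟩, ?_⟩, rfl⟩
    exact hyR
  · intro x
    simp only [Function.comp]
    rw [Set.indicator_of_mem]
    · rfl
    · exact x.2

/-- vectors of given value in the fundamental domain -/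
def SS (F : Fac Q) (ε c1 c2 : ℝ) (σ : ℤ) (n : ℕ) : Set (Fin 2 → ℤ) :=
  {y | y ∈ RD F ε c1 c2 ∧ σ * Q.q y = n}

lemma hv_eq {c1 c2 : ℝ} {σ : ℤ} {h : ℕ} (hh : 0 < h) (hc : c1 * c2 * h = σ) (z : ℂ)
    (y : Fin 2 → ℤ) :
    hv z (c1 * F.l (toR y)) (c2 * F.m (toR y)) =
      if 0 < σ * Q.q y then sg (c1 * F.l (toR y)) *
        cexp (2 * π * I * ((σ * Q.q y : ℤ) : ℂ) * z / h) else 0 := by
  have hh' : (0 : ℝ) < h := by exact_mod_cast hh
  have h1 : c1 * F.l (toR y) * (c2 * F.m (toR y)) = ((σ * Q.q y : ℤ) : ℝ) / h := by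
    rw [show c1 * F.l (toR y) * (c2 * F.m (toR y)) = (c1 * c2 * h) * (F.l (toR y) * F.m (toR y)) / h by
      field_simp, hc, F.l_mul_m_int]
    push_cast
    ring
  unfold hv
  rw [h1]
  have h2 : (0 < ((σ * Q.q y : ℤ) : ℝ) / h) ↔ 0 < σ * Q.q y := by
    rw [div_pos_iff_of_pos_right hh']
    exact_mod_cast Iff.rfl
  simp only [h2]
  split_ifs
  · congr 2
    push_cast
    ring
  · rfl

lemma indicator_eq {ε c1 c2 : ℝ} {σ : ℤ} {h : ℕ} (hσ : σ = 1 ∨ σ = -1) (hh : 0 < h)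
    (hc : c1 * c2 * h = σ) (hQ : ∀ x : Fin 2 → ℤ, x ≠ 0 → Q.q x ≠ 0)
    (φ : (Fin 2 → ℤ) → ℂ) (z : ℂ) (n : ℕ) :
    ((fun y : Fin 2 → ℤ => (σ * Q.q y).toNat) ⁻¹' {n}).indicator ((RD F ε c1 c2).indicator fun y =>
        φ y * hv z (c1 * F.l (toR y)) (c2 * F.m (toR y))) =
      (SS F ε c1 c2 σ n).indicator fun y => φ y * sg (c1 * F.l (toR y)) *
        cexp (2 * π * I * n * z / h) := by
  funext y
  by_cases hy : y ∈ RD F ε c1 c2
  · have hy0 := RD_ne hy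
    have hq := hQ y hy0
    have hσq : σ * Q.q y ≠ 0 := by
      rcases hσ with rfl | rfl <;> simpa using hq
    by_cases hn : y ∈ SS F ε c1 c2 σ n
    · rw [Set.indicator_of_mem hn, Set.indicator_of_mem, Set.indicator_of_mem hy, hv_eq hh hc]
      · have h1 : σ * Q.q y = n := hn.2
        have h2 : 0 < σ * Q.q y := by
          rw [h1] at hσq ⊢
          exact lt_of_le_of_ne (by positivity) (Ne.symm hσq)
        rw [if_pos h2, h1]
        push_cast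
        ring
      · simp only [Set.mem_preimage, Set.mem_singleton_iff]
        rw [hn.2]
        simp
    · rw [Set.indicator_of_notMem hn]
      by_cases hg : y ∈ ((fun y : Fin 2 → ℤ => (σ * Q.q y).toNat) ⁻¹' {n})
      · rw [Set.indicator_of_mem hg, Set.indicator_of_mem hy, hv_eq hh hc, if_neg, mul_zero]
        intro hpos
        apply hn
        refine ⟨hy, ?_⟩
        have : (σ * Q.q y).toNat = n := hg
        rw [← this, Int.toNat_of_nonneg hpos.le]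
      · rw [Set.indicator_of_notMem hg]
  · have hn : y ∉ SS F ε c1 c2 σ n := fun h => hy h.1
    rw [Set.indicator_of_notMem hn]
    by_cases hg : y ∈ ((fun y : Fin 2 → ℤ => (σ * Q.q y).toNat) ⁻¹' {n})
    · rw [Set.indicator_of_mem hg, Set.indicator_of_notMem hy]
    · rw [Set.indicator_of_notMem hg]

lemma sg_norm (r : ℝ) : ‖sg r‖ = 1 := by
  unfold sg; split_ifs <;> simp

lemma SS_finite {M : ℕ} {ε : ℝ} (A : UAct F M ε) (hε : 1 < ε)
    (hQ : ∀ x : Fin 2 → ℤ, x ≠ 0 → Q.q x ≠ 0) {c1 c2 : ℝ} (hc1 : c1 ≠ 0) (hc2 : c2 ≠ 0)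
    {σ : ℤ} {h : ℕ} (hσ : σ = 1 ∨ σ = -1) (hh : 0 < h) (hc : c1 * c2 * h = σ) (n : ℕ) :
    (SS F ε c1 c2 σ n).Finite := by
  have h1 := hasSum_vec A hε hQ hc1 hc2 (φ := fun _ => 1) (B := 1) (fun _ => by simp)
    (fun _ => rfl) (z := I) (by simp)
  have h2 := h1.summable.indicator ((fun y : Fin 2 → ℤ => (σ * Q.q y).toNat) ⁻¹' {n})
  rw [indicator_eq hσ hh hc hQ] at h2
  have h3 := h2.tendsto_cofinite_zero
  have hpos : 0 < ‖cexp (2 * π * I * n * I / h)‖ := norm_pos_iff.2 (Complex.exp_ne_zero _)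
  have h4 := (Metric.tendsto_nhds.1 h3) _ hpos
  rw [Filter.eventually_cofinite] at h4
  refine h4.subset fun y hy => ?_
  simp only [Set.mem_ofPred_eq]
  rw [Set.indicator_of_mem hy, dist_zero_right, norm_mul, norm_mul, sg_norm]
  simp

/-- the coefficients -/
def cg (F : Fac Q) (ε c1 c2 : ℝ) (σ : ℤ) (φ : (Fin 2 → ℤ) → ℂ) (n : ℕ) : ℂ :=
  ∑ᶠ y ∈ SS F ε c1 c2 σ n, φ y * sg (c1 * F.l (toR y))

/-- **expansion** of the integrated theta functions -/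
theorem expand {M : ℕ} {ε : ℝ} (A : UAct F M ε) (hε : 1 < ε)
    (hQ : ∀ x : Fin 2 → ℤ, x ≠ 0 → Q.q x ≠ 0) {c1 c2 : ℝ} (hc1 : c1 ≠ 0) (hc2 : c2 ≠ 0)
    {σ : ℤ} {h : ℕ} (hσ : σ = 1 ∨ σ = -1) (hh : 0 < h) (hc : c1 * c2 * h = σ)
    {φ : (Fin 2 → ℤ) → ℂ} {B : ℝ} (hB : ∀ y, ‖φ y‖ ≤ B) (hU : ∀ y, φ (A.U y) = φ y)
    {z : ℂ} (hz : 0 < z.im) :
    HasSum (fun n : ℕ => cg F ε c1 c2 σ φ n * cexp (2 * π * I * n * z / h))
      (Real.log ε * ∫ s in (0 : ℝ)..1, ∑' y : Fin 2 → ℤ, φ y *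
        hk z (c1 * F.l (toR y)) (c2 * F.m (toR y)) (Real.exp (Real.log ε * s))) := by
  have h1 := hasSum_vec A hε hQ hc1 hc2 hB hU hz
  have h2 := h1.tsum_fiberwise (fun y : Fin 2 → ℤ => (σ * Q.q y).toNat)
  refine hs_congr h2 fun n => ?_
  rw [tsum_subtype, indicator_eq hσ hh hc hQ]
  have hfin := SS_finite A hε hQ hc1 hc2 hσ hh hc n
  unfold cg
  rw [finsum_mem_eq_finite_toFinset_sum _ hfin, Finset.sum_mul,
    tsum_eq_sum (s := hfin.toFinset)]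
  · refine Finset.sum_congr rfl fun y hy => ?_
    rw [Set.indicator_of_mem (hfin.mem_toFinset.1 hy)]
  · intro y hy
    exact Set.indicator_of_notMem (fun h => hy (hfin.mem_toFinset.2 h)) _

lemma v_cg {v : AbsoluteValue ℂ ℝ} (hv : ∀ x y : ℂ, v (x + y) ≤ max (v x) (v y))
    {φ : (Fin 2 → ℤ) → ℂ} {C : ℝ} (hC : ∀ y, v (φ y) ≤ C) (F : Fac Q) (ε c1 c2 : ℝ) (σ : ℤ)
    (n : ℕ) : v (cg F ε c1 c2 σ φ n) ≤ C := by
  have hC0 : 0 ≤ C := (v.nonneg _).trans (hC 0)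
  have hs : ∀ r, v (sg r) = 1 := by
    intro r
    unfold sg
    split_ifs
    · exact v.map_one
    · rw [v.map_neg, v.map_one]
  unfold cg
  by_cases hfin : (SS F ε c1 c2 σ n ∩ Function.support fun y => φ y * sg (c1 * F.l (toR y))).Finite
  · rw [finsum_mem_eq_sum_of_inter_support_eq _ (t := hfin.toFinset) (by
      rw [hfin.coe_toFinset, Set.inter_assoc, Set.inter_self])]
    refine Finset.sum_induction _ (fun x => v x ≤ C) (fun a b ha hb => (hv a b).trans (max_le ha hb))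
      (by simpa using hC0) fun y _ => ?_
    rw [v.map_mul, hs, mul_one]
    exact hC y
  · rw [finsum_mem_eq_zero_of_infinite hfin]
    simpa using hC0

end

end Vale.Agent.P022.H954
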