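import Vale.Agent.P267.H775.Poisson
import Vale.Agent.P267.H775.Gauss

/-!
# P022 / P8: the indefinite Gaussian with linear factor in two variables, and its Poisson summation
-/

open MeasureTheory Set Complex TopologicalSpace Filter Matrix
open scoped Real Topology ComplexConjugate

namespace Vale.Agent.P022.H954

noncomputable section

open Vale.Agent.P267.H775 (toR chr fc LocSum poisson qf exists_bound)

/-! ### One variable -/

lemma integrable_lin {b : ℂ} (hb : b.re < 0) (c : ℂ) :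
    Integrable (fun x : ℝ => (x : ℂ) * cexp (b * x ^ 2 + c * x)) := by
  have h1 := (integrable_cexp_quadratic (b := -b) (by simpa using hb) (c + 1) 0).norm
  have h2 := (integrable_cexp_quadratic (b := -b) (by simpa using hb) (c - 1) 0).norm
  refine (h1.add h2).mono' ?_ ?_
  · have : Continuous (fun x : ℝ => (x : ℂ) * cexp (b * x ^ 2 + c * x)) := by fun_prop
    exact this.aestronglyMeasurable
  · refine Eventually.of_forall fun x => ?_
    simp only [Pi.add_apply]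
    rw [norm_mul, Complex.norm_real, Complex.norm_exp, Complex.norm_exp, Complex.norm_exp]
    have e1 : (-(-b) * (x : ℂ) ^ 2 + (c + 1) * x + 0).re = (b * x ^ 2 + c * x).re + x := by
      simp; ring
    have e2 : (-(-b) * (x : ℂ) ^ 2 + (c - 1) * x + 0).re = (b * x ^ 2 + c * x).re - x := by
      simp; ring
    rw [e1, e2, Real.exp_add, Real.exp_sub]
    have h3 : |x| ≤ Real.exp x + (Real.exp x)⁻¹ := by
      rw [← Real.exp_neg]
      have h4 := Real.add_one_le_exp x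
      have h5 := Real.add_one_le_exp (-x)
      have h6 := Real.exp_pos x
      have h7 := Real.exp_pos (-x)
      rw [abs_le]; constructor <;> linarith
    have h8 := Real.exp_pos (b * (x : ℂ) ^ 2 + c * x).re
    rw [Real.norm_eq_abs]
    calc |x| * Real.exp (b * (x : ℂ) ^ 2 + c * x).re
        ≤ (Real.exp x + (Real.exp x)⁻¹) * Real.exp (b * (x : ℂ) ^ 2 + c * x).re :=
          mul_le_mul_of_nonneg_right h3 h8.le
      _ = _ := by ring

lemma integral_lin {b : ℂ} (hb : b.re < 0) (c : ℂ) :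
    ∫ x : ℝ, (x : ℂ) * cexp (b * x ^ 2 + c * x) =
      -(c / (2 * b)) * ((π / -b) ^ (1 / 2 : ℂ) * cexp (-(c ^ 2 / (4 * b)))) := by
  have hb0 : b ≠ 0 := by rintro rfl; simp at hb
  have h0 : Integrable (fun x : ℝ => cexp (b * x ^ 2 + c * x)) := by
    simpa using (integrable_cexp_quadratic (b := -b) (by simpa using hb) c 0)
  have h1 := integrable_lin hb c
  have hd : ∀ x : ℝ, HasDerivAt (fun x : ℝ => cexp (b * x ^ 2 + c * x))
      ((2 * b) * ((x : ℂ) * cexp (b * x ^ 2 + c * x)) + c * cexp (b * x ^ 2 + c * x)) x := by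
    intro x
    have h2 : HasDerivAt (fun z : ℂ => cexp (b * z ^ 2 + c * z))
        (cexp (b * (x : ℂ) ^ 2 + c * x) * (b * (2 * x) + c)) (x : ℂ) := by
      have h3 : HasDerivAt (fun z : ℂ => b * z ^ 2 + c * z) (b * (2 * (x : ℂ)) + c) (x : ℂ) := by
        have h4 := (hasDerivAt_pow 2 (x : ℂ)).const_mul b
        have h5 := (hasDerivAt_id' (x : ℂ)).const_mul c
        simpa using h4.fun_add h5
      exact h3.cexp
    have h6 := h2.comp_ofReal
    convert h6 using 1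
    ring
  have hz := integral_eq_zero_of_hasDerivAt_of_integrable hd
    ((h1.const_mul (2 * b)).add (h0.const_mul c)) h0
  rw [integral_add (h1.const_mul (2 * b)) (h0.const_mul c), integral_const_mul,
    integral_const_mul] at hz
  have hq := integral_cexp_quadratic (b := b) hb c 0
  simp only [add_zero, zero_sub] at hq
  rw [hq] at hz
  generalize (∫ x : ℝ, (x : ℂ) * cexp (b * x ^ 2 + c * x)) = A at hz ⊢
  generalize (π / -b : ℂ) ^ (1 / 2 : ℂ) * cexp (-(c ^ 2 / (4 * b))) = B at hz ⊢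
  field_simp
  linear_combination hz

lemma integral_quad {b : ℂ} (hb : b.re < 0) (c : ℂ) :
    ∫ x : ℝ, cexp (b * x ^ 2 + c * x) = (π / -b) ^ (1 / 2 : ℂ) * cexp (-(c ^ 2 / (4 * b))) := by
  have hq := integral_cexp_quadratic (b := b) hb c 0
  simpa only [add_zero, zero_sub] using hq

lemma integrable_quad {b : ℂ} (hb : b.re < 0) (c : ℂ) :
    Integrable (fun x : ℝ => cexp (b * x ^ 2 + c * x)) := by
  simpa using (integrable_cexp_quadratic (b := -b) (by simpa using hb) c 0)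

/-! ### Two variables -/

/-- `(M x)₀ exp(π i τ (M x)₀² - π i conj τ (M x)₁²)` -/
def G2 (M : Matrix (Fin 2) (Fin 2) ℝ) (τ : ℂ) : C(Fin 2 → ℝ, ℂ) where
  toFun x := ((M *ᵥ x) 0 : ℂ) *
    cexp (π * I * τ * ((M *ᵥ x) 0 : ℝ) ^ 2 - π * I * conj τ * ((M *ᵥ x) 1 : ℝ) ^ 2)
  continuous_toFun := by fun_prop

lemma G2_apply (M : Matrix (Fin 2) (Fin 2) ℝ) (τ : ℂ) (x : Fin 2 → ℝ) :
    G2 M τ x = ((M *ᵥ x) 0 : ℂ) *
      cexp (π * I * τ * ((M *ᵥ x) 0 : ℝ) ^ 2 - π * I * conj τ * ((M *ᵥ x) 1 : ℝ) ^ 2) := rfl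

lemma norm_G2 (M : Matrix (Fin 2) (Fin 2) ℝ) (τ : ℂ) (x : Fin 2 → ℝ) :
    ‖G2 M τ x‖ = |(M *ᵥ x) 0| * Real.exp (-π * τ.im * qf M x) := by
  rw [G2_apply, norm_mul, Complex.norm_real, Real.norm_eq_abs, Complex.norm_exp]
  congr 2
  simp [qf, Fin.sum_univ_two, ← Complex.ofReal_pow]
  ring

lemma abs_le_exp_sq {s : ℝ} (hs : 0 < s) (a : ℝ) : |a| ≤ (1 + 1 / s) * Real.exp (s * a ^ 2) := by
  have h1 := Real.add_one_le_exp (s * a ^ 2)
  have h2 : |a| ≤ 1 + a ^ 2 := by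
    rw [abs_le]; constructor <;> nlinarith [sq_nonneg (a - 1), sq_nonneg (a + 1)]
  have h3 : (1 + 1 / s) * (s * a ^ 2 + 1) = s * a ^ 2 + 1 + a ^ 2 + 1 / s := by
    field_simp
    ring
  have h4 : 0 < 1 / s := by positivity
  have h5 : 0 ≤ s * a ^ 2 := by positivity
  calc |a| ≤ 1 + a ^ 2 := h2
    _ ≤ (1 + 1 / s) * (s * a ^ 2 + 1) := by rw [h3]; linarith
    _ ≤ _ := mul_le_mul_of_nonneg_left h1 (by positivity)

lemma norm_G2_le (M : Matrix (Fin 2) (Fin 2) ℝ) {τ : ℂ} (hτ : 0 < τ.im) (x : Fin 2 → ℝ) :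
    ‖G2 M τ x‖ ≤ (1 + 1 / (π * (τ.im / 2))) * Real.exp (-π * (τ.im / 2) * qf M x) := by
  rw [norm_G2]
  have h1 := abs_le_exp_sq (s := π * (τ.im / 2)) (by positivity) ((M *ᵥ x) 0)
  have h2 : ((M *ᵥ x) 0) ^ 2 ≤ qf M x := by
    simp only [qf, Fin.sum_univ_two]
    nlinarith [sq_nonneg ((M *ᵥ x) 1)]
  have h3 : Real.exp (π * (τ.im / 2) * ((M *ᵥ x) 0) ^ 2) ≤ Real.exp (π * (τ.im / 2) * qf M x) :=
    Real.exp_le_exp.2 (mul_le_mul_of_nonneg_left h2 (by positivity))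
  calc |(M *ᵥ x) 0| * Real.exp (-π * τ.im * qf M x)
      ≤ ((1 + 1 / (π * (τ.im / 2))) * Real.exp (π * (τ.im / 2) * qf M x)) *
        Real.exp (-π * τ.im * qf M x) := by
        refine mul_le_mul_of_nonneg_right (h1.trans ?_) (Real.exp_pos _).le
        exact mul_le_mul_of_nonneg_left h3 (by positivity)
    _ = _ := by
        rw [mul_assoc, ← Real.exp_add]
        congr 2
        ring

lemma locSum_G2 (M : Matrix (Fin 2) (Fin 2) ℝ) (hM : M.det ≠ 0) {τ : ℂ} (hτ : 0 < τ.im) :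
    LocSum (G2 M τ) := by
  intro K
  obtain ⟨R, hR⟩ := K.isCompact.isBounded.exists_norm_le
  obtain ⟨u, hu0, hu, hle⟩ := exists_bound M hM R (τ.im / 2) (by positivity)
  refine Summable.of_norm_bounded (hu.mul_left (1 + 1 / (π * (τ.im / 2)))) fun n => ?_
  rw [norm_norm, ContinuousMap.norm_le _ (mul_nonneg (by positivity) (hu0 n))]
  rintro ⟨x, hx⟩
  have : ‖G2 M τ (x + toR n)‖ ≤ (1 + 1 / (π * (τ.im / 2))) * u n := by
    refine (norm_G2_le M hτ _).trans ?_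
    refine mul_le_mul_of_nonneg_left ?_ (by positivity)
    exact hle n x fun i => (norm_le_pi_norm x i).trans (hR x hx)
  exact this

/-- the function of one variable in direction `i` -/
def f1 (τ : ℂ) (c : Fin 2 → ℂ) : Fin 2 → ℝ → ℂ :=
  ![fun y => (y : ℂ) * cexp ((π * I * τ) * y ^ 2 + c 0 * y),
    fun y => cexp (-(π * I * conj τ) * y ^ 2 + c 1 * y)]

lemma re0 {τ : ℂ} (hτ : 0 < τ.im) : (π * I * τ : ℂ).re < 0 := by
  simp
  exact mul_pos Real.pi_pos hτ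

lemma re1 {τ : ℂ} (hτ : 0 < τ.im) : (-(π * I * conj τ) : ℂ).re < 0 := by
  simp
  exact mul_pos Real.pi_pos hτ

lemma integrable_f1 {τ : ℂ} (hτ : 0 < τ.im) (c : Fin 2 → ℂ) (i : Fin 2) :
    Integrable (f1 τ c i) := by
  fin_cases i
  · exact integrable_lin (re0 hτ) (c 0)
  · exact integrable_quad (re1 hτ) (c 1)

lemma integrable_prod_f1 {τ : ℂ} (hτ : 0 < τ.im) (c : Fin 2 → ℂ) :
    Integrable (fun y : Fin 2 → ℝ => ∏ i, f1 τ c i (y i)) :=
  Integrable.fintype_prod fun i => integrable_f1 hτ c i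

lemma integrable_G2 (M : Matrix (Fin 2) (Fin 2) ℝ) (hM : M.det ≠ 0) {τ : ℂ} (hτ : 0 < τ.im) :
    Integrable (G2 M τ : (Fin 2 → ℝ) → ℂ) := by
  have h1 := integrable_prod_f1 hτ (fun _ => 0)
  have hmap := Real.map_matrix_volume_pi_eq_smul_volume_pi hM
  have h2 : Integrable (fun y : Fin 2 → ℝ => ∏ i, f1 τ (fun _ => 0) i (y i))
      (Measure.map (toLin' M) volume) := by
    rw [hmap]
    exact h1.smul_measure ENNReal.ofReal_ne_top
  have hme : Measurable (toLin' M : (Fin 2 → ℝ) → (Fin 2 → ℝ)) :=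
    (LinearMap.continuous_on_pi (toLin' M)).measurable
  have h3 := h2.comp_measurable hme
  have h4 : (G2 M τ : (Fin 2 → ℝ) → ℂ) =
      (fun y : Fin 2 → ℝ => ∏ i, f1 τ (fun _ => 0) i (y i)) ∘ (toLin' M) := by
    funext x
    simp only [Function.comp, G2_apply, toLin'_apply, Fin.prod_univ_two, f1]
    simp only [Matrix.cons_val_zero, Matrix.cons_val_one, zero_mul, add_zero]
    rw [show cexp (π * I * τ * ((M *ᵥ x) 0 : ℝ) ^ 2 - π * I * conj τ * ((M *ᵥ x) 1 : ℝ) ^ 2) =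
      cexp (π * I * τ * ((M *ᵥ x) 0 : ℝ) ^ 2) * cexp (-(π * I * conj τ) * ((M *ᵥ x) 1 : ℝ) ^ 2) by
        rw [← Complex.exp_add]; congr 1; ring]
    ring
  rw [h4]
  exact h3

/-- Fourier transform. -/
lemma fc_G2 (M : Matrix (Fin 2) (Fin 2) ℝ) (hM : M.det ≠ 0) {τ : ℂ} (hτ : 0 < τ.im)
    (k : Fin 2 → ℤ) :
    fc (G2 M τ) k = ((|M.det|⁻¹ * ‖τ‖⁻¹ : ℝ) : ℂ) * τ⁻¹ * G2 (M⁻¹)ᵀ (-1 / τ) (toR k) := by
  have hτ0 : τ ≠ 0 := by rintro rfl; simp at hτ
  have hc0 : conj τ ≠ 0 := by simpa using hτ0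
  set c : Fin 2 → ℂ := fun i => -(2 * π * I) * (((M⁻¹)ᵀ *ᵥ toR k) i : ℝ) with hc
  set F : (Fin 2 → ℝ) → ℂ := fun y => ∏ i, f1 τ c i (y i) with hF
  have hmap := Real.map_matrix_volume_pi_eq_smul_volume_pi hM
  have hme : Measurable (toLin' M : (Fin 2 → ℝ) → (Fin 2 → ℝ)) :=
    (LinearMap.continuous_on_pi (toLin' M)).measurable
  have hFe : ∀ y, F y = (y 0 : ℂ) * cexp (π * I * τ * (y 0) ^ 2 - π * I * conj τ * (y 1) ^ 2 +
      ∑ i, c i * y i) := by
    intro y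
    simp only [hF, Fin.prod_univ_two, f1, Matrix.cons_val_zero, Matrix.cons_val_one,
      Fin.sum_univ_two]
    rw [mul_assoc, ← Complex.exp_add]
    congr 2
    ring
  have h1 : ∀ x : Fin 2 → ℝ, chr (-k) x * G2 M τ x = F (toLin' M x) := by
    intro x
    have e2 : (2 * π * I * ∑ i, (((-k) i : ℤ) : ℂ) * (x i : ℂ)) =
        ∑ i, c i * (((toLin' M x) i : ℝ) : ℂ) := by
      have e3 : ∑ i, ((M⁻¹)ᵀ *ᵥ toR k) i * (M *ᵥ x) i = ∑ i, toR k i * x i := by
        have : ((M⁻¹)ᵀ *ᵥ toR k) ⬝ᵥ (M *ᵥ x) = toR k ⬝ᵥ x := by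
          rw [mulVec_transpose, ← dotProduct_mulVec, mulVec_mulVec,
            nonsing_inv_mul _ (isUnit_iff_ne_zero.2 hM), one_mulVec]
        exact this
      have e4 : (∑ i, (k i : ℂ) * (x i : ℂ)) =
          ((∑ i, ((M⁻¹)ᵀ *ᵥ toR k) i * (M *ᵥ x) i : ℝ) : ℂ) := by
        rw [e3]; push_cast; rfl
      have e5 : (∑ i, (((-k) i : ℤ) : ℂ) * (x i : ℂ)) = - ∑ i, (k i : ℂ) * (x i : ℂ) := by
        rw [← Finset.sum_neg_distrib]
        refine Finset.sum_congr rfl fun i _ => ?_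
        simp
      rw [e5, e4]
      simp only [hc, toLin'_apply]
      push_cast
      rw [mul_neg, Finset.mul_sum, ← Finset.sum_neg_distrib]
      refine Finset.sum_congr rfl fun i _ => ?_
      ring
    rw [hFe, ← e2, G2_apply, chr, toLin'_apply, Complex.exp_add]
    ring
  unfold fc
  simp_rw [h1]
  rw [← integral_map (φ := (toLin' M : (Fin 2 → ℝ) → (Fin 2 → ℝ))) (f := F) hme.aemeasurable
    (by
      have : Continuous F := by
        have : F = fun y => (y 0 : ℂ) * cexp (π * I * τ * (y 0) ^ 2 - π * I * conj τ * (y 1) ^ 2 +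
            ∑ i, c i * y i) := funext hFe
        rw [this]
        fun_prop
      exact this.aestronglyMeasurable), hmap, integral_smul_measure]
  have h2 : ∫ y, F y = (∫ y, f1 τ c 0 y) * ∫ y, f1 τ c 1 y := by
    rw [hF]
    rw [integral_fintype_prod_volume_eq_prod (fun i => f1 τ c i), Fin.prod_univ_two]
  have h3 : ∫ y, f1 τ c 0 y = -(c 0 / (2 * (π * I * τ))) *
      ((π / -(π * I * τ)) ^ (1 / 2 : ℂ) * cexp (-(c 0 ^ 2 / (4 * (π * I * τ))))) :=
    integral_lin (re0 hτ) (c 0)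
  have h4 : ∫ y, f1 τ c 1 y = (π / -(-(π * I * conj τ))) ^ (1 / 2 : ℂ) *
      cexp (-(c 1 ^ 2 / (4 * (-(π * I * conj τ))))) :=
    integral_quad (re1 hτ) (c 1)
  have hpi : (π : ℂ) ≠ 0 := by exact_mod_cast Real.pi_ne_zero
  have h5 : (π / -(π * I * τ) : ℂ) ^ (1 / 2 : ℂ) * (π / -(-(π * I * conj τ))) ^ (1 / 2 : ℂ) =
      ((‖τ‖⁻¹ : ℝ) : ℂ) := by
    have e1 : (π / -(-(π * I * conj τ)) : ℂ) = conj (π / -(π * I * τ) : ℂ) := by
      simp only [map_div₀, map_neg, map_mul, Complex.conj_ofReal, Complex.conj_I]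
      congr 1
      ring
    have e2 : (π / -(π * I * τ) : ℂ) = I / τ := by
      field_simp
      simp
    have hre : 0 < (I / τ : ℂ).re := by
      rw [Complex.div_re]
      simp
      have : 0 < Complex.normSq τ := Complex.normSq_pos.2 hτ0
      positivity
    have harg : (I / τ : ℂ).arg ≠ π := by
      intro h
      have := Complex.abs_arg_lt_pi_div_two_iff.2 (Or.inl hre)
      rw [h, abs_of_pos Real.pi_pos] at this
      linarith [Real.pi_pos]
    rw [e1, e2]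
    have e3 : (conj (I / τ)) ^ (1 / 2 : ℂ) = conj ((I / τ) ^ (1 / 2 : ℂ)) := by
      have := Complex.conj_cpow (I / τ) (1 / 2 : ℂ) harg
      have hh : conj (1 / 2 : ℂ) = 1 / 2 := by
        have := Complex.conj_ofReal (1 / 2 : ℝ)
        push_cast at this
        exact this
      rw [this, hh]
    rw [e3, Complex.mul_conj, Complex.normSq_eq_norm_sq]
    congr 1
    have e4 : ‖(I / τ : ℂ) ^ (1 / 2 : ℂ)‖ = ‖(I / τ : ℂ)‖ ^ (1 / 2 : ℝ) := by
      have := Complex.norm_cpow_of_ne_zero (z := I / τ) (div_ne_zero I_ne_zero hτ0) (1 / 2 : ℂ)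
      rw [this]
      simp
    rw [e4, ← Real.rpow_natCast, ← Real.rpow_mul (norm_nonneg _)]
    norm_num
  rw [h2, h3, h4, ENNReal.toReal_ofReal (abs_nonneg _), abs_inv, Complex.real_smul, G2_apply]
  have e6 : cexp (-(c 0 ^ 2 / (4 * (π * I * τ)))) * cexp (-(c 1 ^ 2 / (4 * (-(π * I * conj τ))))) =
      cexp (π * I * (-1 / τ) * (((M⁻¹)ᵀ *ᵥ toR k) 0 : ℝ) ^ 2 -
        π * I * conj (-1 / τ) * (((M⁻¹)ᵀ *ᵥ toR k) 1 : ℝ) ^ 2) := by
    rw [← Complex.exp_add]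
    congr 1
    simp only [hc, map_div₀, map_neg, map_one]
    field_simp
    ring_nf
  have e7 : -(c 0 / (2 * (π * I * τ))) = τ⁻¹ * (((M⁻¹)ᵀ *ᵥ toR k) 0 : ℝ) := by
    simp only [hc]
    field_simp
  push_cast at h5 ⊢
  rw [e7, ← e6, ← h5]
  ring

lemma im_neg_inv {τ : ℂ} (hτ : 0 < τ.im) : 0 < (-1 / τ).im := by
  have hτ0 : τ ≠ 0 := by rintro rfl; simp at hτ
  rw [neg_div, one_div, Complex.neg_im, Complex.inv_im]
  have : 0 < Complex.normSq τ := Complex.normSq_pos.2 hτ0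
  rw [neg_div, neg_neg]
  positivity

lemma summable_G2 (M : Matrix (Fin 2) (Fin 2) ℝ) (hM : M.det ≠ 0) {τ : ℂ} (hτ : 0 < τ.im)
    (x : Fin 2 → ℝ) : Summable fun n : Fin 2 → ℤ => G2 M τ (x + toR n) :=
  (locSum_G2 M hM hτ).summable x

/-- **Poisson summation** for `G2`. -/
theorem poisson_G2 (M : Matrix (Fin 2) (Fin 2) ℝ) (hM : M.det ≠ 0) {τ : ℂ} (hτ : 0 < τ.im)
    (x : Fin 2 → ℝ) :
    HasSum (fun k : Fin 2 → ℤ => ((|M.det|⁻¹ * ‖τ‖⁻¹ : ℝ) : ℂ) * τ⁻¹ *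
      G2 (M⁻¹)ᵀ (-1 / τ) (toR k) * chr k x) (∑' n : Fin 2 → ℤ, G2 M τ (x + toR n)) := by
  have hM' : ((M⁻¹)ᵀ).det ≠ 0 := by
    rw [det_transpose, det_nonsing_inv]
    simpa using hM
  have h := poisson (G2 M τ) (locSum_G2 M hM hτ) (integrable_G2 M hM hτ) (by
    have h1 := (summable_G2 (M⁻¹)ᵀ hM' (im_neg_inv hτ) 0).mul_left
      (((|M.det|⁻¹ * ‖τ‖⁻¹ : ℝ) : ℂ) * τ⁻¹)
    refine h1.congr fun k => ?_
    rw [fc_G2 M hM hτ k, zero_add]) x
  simp_rw [fc_G2 M hM hτ] at h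
  exact h

end

end Vale.Agent.P022.H954
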