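import Vale.Agent.P022.H954.Exp
import Vale.Agent.P022.H23.Cusp2

/-!
# P022 / P8: Hecke's weight one forms of a real quadratic form
-/

open Complex MeasureTheory Set
open UpperHalfPlane hiding I
open scoped Real ComplexConjugate Interval MatrixGroups ModularForm NumberTheorySymbols
open Vale.Agent.P267.H775 (toR toR_apply chr qf exists_bound)
open Vale.Agent.P022.H23

namespace Vale.Agent.P022.H954

noncomputable section

variable {Q : BQ} (F : Fac Q)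

/-- Hecke's form -/
def GH (ε : ℝ) (f : (Fin 2 → ℤ) → ℂ) (τ : ℍ) : ℂ :=
  Real.log ε * ∫ s in (0 : ℝ)..1, Tf (F.ker (Real.exp (Real.log ε * s))) f (τ : ℂ)

variable {F}

lemma Fac.det_ne (F : Fac Q) : Q.det ≠ 0 := by
  intro h
  have h1 := F.det_eq
  rw [h] at h1
  have h2 : F.dt ≠ 0 := F.hd
  have : F.dt ^ 2 = 0 := by push_cast at h1; linarith
  exact h2 (pow_eq_zero_iff (two_ne_zero) |>.1 this)

lemma UAct.inv_perM {M : ℕ} {ε : ℝ} (A : UAct F M ε) {f : (Fin 2 → ℤ) → ℂ} (hf : PerM M f)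
    (x : Fin 2 → ℤ) : f (A.U x) = f x := by
  obtain ⟨y, hy⟩ := A.hc x
  have : ((M : ℤ) ^ 2 * Q.det) • y = (M : ℤ) • (((M : ℤ) * Q.det) • y) := by
    rw [smul_smul]; congr 1; ring
  rw [hy, this, hf]

/-- expansion at infinity -/
theorem GH_hasSum {M : ℕ} (hM : 0 < M) {ε : ℝ} (A : UAct F M ε) (hε : 1 < ε)
    (hQ : ∀ x : Fin 2 → ℤ, x ≠ 0 → Q.q x ≠ 0) {f : (Fin 2 → ℤ) → ℂ} (hf : PerM M f) (τ : ℍ) :
    HasSum (fun n : ℕ => cg F ε 1 1 1 f n * cexp (2 * π * I * n * τ)) (GH F ε f τ) := by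
  have : NeZero M := ⟨hM.ne'⟩
  obtain ⟨B, hB⟩ := hf.bdd
  have h := expand A hε hQ (c1 := 1) (c2 := 1) (σ := 1) (h := 1) one_ne_zero one_ne_zero
    (Or.inl rfl) one_pos (by simp) hB (fun y => A.inv_perM hf y) τ.im_pos
  have e : GH F ε f τ = (Real.log ε * ∫ s in (0 : ℝ)..1, ∑' y : Fin 2 → ℤ, f y *
        hk τ (1 * F.l (toR y)) (1 * F.m (toR y)) (Real.exp (Real.log ε * s))) := by
    unfold GH Tf
    congr 2
    funext s
    refine tsum_congr fun y => ?_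
    rw [F.ker_hk, one_mul, one_mul]
  rw [e]
  refine hs_congr h fun n => ?_
  simp

/-- integration over `t` commutes with the slash operators -/
lemma GH_slash (γ : SL(2, ℤ)) (ε : ℝ) (f : (Fin 2 → ℤ) → ℂ) (τ : ℍ) :
    (GH F ε f ∣[(1 : ℤ)] γ) τ = Real.log ε * ∫ s in (0 : ℝ)..1,
      ((fun τ : ℍ => Tf (F.ker (Real.exp (Real.log ε * s))) f (τ : ℂ)) ∣[(1 : ℤ)] γ) τ := by
  rw [ModularForm.SL_slash_apply]
  simp_rw [ModularForm.SL_slash_apply]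
  rw [intervalIntegral.integral_mul_const]
  unfold GH
  ring

/-- the dual vectors in terms of the linear forms -/
lemma Fac.l_dr (F : Fac Q) (k : Fin 2 → ℤ) : F.l (Q.dr k) = F.dt⁻¹ * (F.l0 * k 1 - F.l1 * k 0) := by
  have hdt : F.dt ≠ 0 := F.hd
  simp only [BQ.dr, F.det_eq, l, BQ.dl]
  simp
  rw [← F.ha, ← F.hb, ← F.hc]
  field_simp
  unfold dt
  ring

lemma Fac.m_dr (F : Fac Q) (k : Fin 2 → ℤ) : F.m (Q.dr k) = -F.dt⁻¹ * (F.m0 * k 1 - F.m1 * k 0) := by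
  have hdt : F.dt ≠ 0 := F.hd
  simp only [BQ.dr, F.det_eq, m, BQ.dl]
  simp
  rw [← F.ha, ← F.hb, ← F.hc]
  field_simp
  unfold dt
  ring

/-- rotation by a right angle -/
def rot : (Fin 2 → ℤ) ≃ (Fin 2 → ℤ) where
  toFun y := ![-y 1, y 0]
  invFun k := ![k 1, -k 0]
  left_inv y := by funext i; fin_cases i <;> simp
  right_inv y := by funext i; fin_cases i <;> simp

lemma rot_add (x y : Fin 2 → ℤ) : rot (x + y) = rot x + rot y := by
  funext i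
  fin_cases i
  · simp [rot]; ring
  · simp [rot]

lemma rot_smul (c : ℤ) (y : Fin 2 → ℤ) : rot (c • y) = c • rot y := by
  funext i
  fin_cases i <;> simp [rot]

lemma TF_hk {M : ℕ} (hM : 0 < M) (F' : (Fin 2 → ℤ) → ℂ) (t : ℝ) (z : ℂ) :
    TF (sck (F.ker t) M) (Q.sc M) F' z = ∑' y : Fin 2 → ℤ, F' (rot y) *
      hk z (((M : ℝ) * F.dt)⁻¹ * F.l (toR y)) (-((M : ℝ) * F.dt)⁻¹ * F.m (toR y)) t := by
  have hM' : (M : ℝ) ≠ 0 := by exact_mod_cast hM.ne'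
  have hdt : F.dt ≠ 0 := F.hd
  unfold TF
  rw [← rot.tsum_eq]
  refine tsum_congr fun y => ?_
  congr 1
  unfold sck
  rw [BQ.sc_dr F.det_ne hM, smul_smul, F.ker_hk, F.l_smul, F.m_smul, F.l_dr, F.m_dr]
  congr 1
  · simp [rot, Fac.l]
    field_simp
  · simp [rot, Fac.m]
    field_simp

/-- **expansion at all cusps** -/
theorem GH_cusp {M : ℕ} (hM : 0 < M) {ε : ℝ} (A : UAct F M ε) (hε : 1 < ε)
    (hQ : ∀ x : Fin 2 → ℤ, x ≠ 0 → Q.q x ≠ 0) {f : (Fin 2 → ℤ) → ℂ} (hf : PerM M f)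
    (γ : SL(2, ℤ)) : ∃ φ : (Fin 2 → ℤ) → ℂ, (Set.range φ).Finite ∧
      ∀ τ : ℍ, HasSum (fun n : ℕ => cg F ε ((M : ℝ) * F.dt)⁻¹ (-((M : ℝ) * F.dt)⁻¹) (-1) φ n *
        cexp (2 * π * I * n * τ / ((M ^ 2 * Q.det.natAbs : ℕ) : ℂ)))
        ((GH F ε f ∣[(1 : ℤ)] γ) τ) := by
  have hM' : (M : ℝ) ≠ 0 := by exact_mod_cast hM.ne'
  have hdt : F.dt ≠ 0 := F.hd
  have hdet := F.det_ne
  have hC : ((|F.dt|⁻¹ : ℝ) : ℂ) ≠ 0 := by
    exact_mod_cast inv_ne_zero (abs_ne_zero.2 hdt)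
  obtain ⟨F', hF', h⟩ := Tf_SL2 hdet hC hM hf γ
  refine ⟨fun y => F' (rot y), ?_, fun τ => ?_⟩
  · exact (hF'.finite_range (BQ.sc_det_ne hdet hM)).subset (Set.range_comp_subset_range rot F')
  · obtain ⟨B, hB⟩ := hF'.bdd (BQ.sc_det_ne hdet hM)
    have hinv : ∀ y, F' (rot (A.U y)) = F' (rot y) := by
      intro y
      obtain ⟨w, hw⟩ := A.hc y
      have h1 : rot (((M : ℤ) ^ 2 * Q.det) • w) = (Q.sc M).gr (Q.dl (rot w)) := by
        rw [BQ.sc_gr, BQ.gr_dl, rot_smul, smul_smul]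
      rw [hw, rot_add, h1, hF']
    have hdt2 : (Q.det.natAbs : ℝ) = F.dt ^ 2 := by
      have h1 := F.det_eq
      have h2 : (Q.det.natAbs : ℝ) = |(Q.det : ℝ)| := by
        rw [← Int.cast_abs, Int.abs_eq_natAbs]
        simp
      rw [h2, h1, abs_neg, abs_of_nonneg (sq_nonneg _)]
    have hexp := expand (h := M ^ 2 * Q.det.natAbs) A hε hQ (c1 := ((M : ℝ) * F.dt)⁻¹)
      (c2 := -((M : ℝ) * F.dt)⁻¹) (σ := -1)
      (inv_ne_zero (mul_ne_zero hM' hdt)) (neg_ne_zero.2 (inv_ne_zero (mul_ne_zero hM' hdt)))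
      (Or.inr rfl) (Nat.mul_pos (pow_pos hM 2) (Int.natAbs_pos.2 hdet)) (by
        push_cast
        rw [hdt2]
        field_simp) (φ := fun y => F' (rot y)) (fun y => hB _) hinv τ.im_pos
    convert hexp using 1
    rw [GH_slash]
    congr 2
    funext s
    have hpos : Real.exp (Real.log ε * s) ≠ 0 := (Real.exp_pos _).ne'
    rw [h _ (F.isKer hpos)]
    unfold TFH
    exact TF_hk hM F' _ _

/-- transformation under `Γ₀` -/
theorem GH_gamma {M : ℕ} (hM : 0 < M) (ε : ℝ) {f : (Fin 2 → ℤ) → ℂ} (hf : PerM M f)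
    {γ : SL(2, ℤ)} (hγ : (4 * (M : ℤ) ^ 2 * Q.det) ∣ γ 1 0) {d : ℕ} (hd : γ 1 1 = d) :
    GH F ε f ∣[(1 : ℤ)] γ = (J(-Q.det | d) : ℂ) • GH F ε (fun x => f ((d : ℤ) • x)) := by
  funext τ
  have key : ∀ s : ℝ, ((fun τ : ℍ => Tf (F.ker (Real.exp (Real.log ε * s))) f (τ : ℂ)) ∣[(1 : ℤ)] γ) τ =
      (J(-Q.det | d) : ℂ) * Tf (F.ker (Real.exp (Real.log ε * s))) (fun x => f ((d : ℤ) • x)) (τ : ℂ) := by
    intro s
    have hpos : Real.exp (Real.log ε * s) ≠ 0 := (Real.exp_pos _).ne'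
    have hdet2 : γ 0 0 * (d : ℤ) - γ 0 1 * γ 1 0 = 1 := by
      rw [← hd, ← Matrix.det_fin_two]
      exact γ.det_coe
    have h1 := (F.isKer hpos).Tf_gamma F.det_ne hM hf hdet2 hγ τ.im_pos
    have h2 : ((γ • τ : ℍ) : ℂ) = (γ 0 0 * (τ : ℂ) + γ 0 1) / (γ 1 0 * (τ : ℂ) + (d : ℂ)) := by
      rw [UpperHalfPlane.specialLinearGroup_apply]
      have : ((γ 1 1 : ℤ) : ℂ) = d := by rw [hd]; push_cast; rfl
      simp [this]
    have h3 : denom γ τ = γ 1 0 * (τ : ℂ) + (d : ℂ) := by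
      rw [ModularGroup.denom_apply]
      have : ((γ 1 1 : ℤ) : ℂ) = d := by rw [hd]; push_cast; rfl
      rw [this]
    rw [ModularForm.SL_slash_apply, h2, h3, h1, zpow_neg, zpow_one]
    have h4 : (γ 1 0 * (τ : ℂ) + (d : ℂ)) ≠ 0 := by
      rw [← h3]
      exact denom_ne_zero _ _
    field_simp
  rw [GH_slash, Pi.smul_apply, smul_eq_mul]
  unfold GH
  simp_rw [key, intervalIntegral.integral_const_mul]
  ring

end

end Vale.Agent.P022.H954
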