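import Vale.Agent.P022.H954.RDefs
import Mathlib

/-!
# P022 / P8: the integral of Hecke's kernel over `t`
-/

open Complex MeasureTheory Set
open scoped Real ComplexConjugate

namespace Vale.Agent.P022.H954

noncomputable section

/-- Hecke's kernel as a function of the values of the two linear forms -/
def hk (z : ℂ) (l m t : ℝ) : ℂ :=
  (√z.im : ℝ) * ((l * t + m / t : ℝ) : ℂ) *
    cexp (2 * π * I * z.re * ((l * m : ℝ) : ℂ) - π * z.im * ((l * t) ^ 2 + (m / t) ^ 2 : ℝ))

lemma hk_mul (z : ℂ) (l m t : ℝ) {c : ℝ} (hc : c ≠ 0) : hk z (c * l) (c⁻¹ * m) t = hk z l m (c * t) := by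
  unfold hk
  have h1 : c * l * (c⁻¹ * m) = l * m := by field_simp
  have h2 : c * l * t = l * (c * t) := by ring
  have h3 : c⁻¹ * m / t = m / (c * t) := by rw [inv_mul_eq_div, div_div]
  rw [h1, h2, h3]

lemma norm_hk (z : ℂ) (l m t : ℝ) :
    ‖hk z l m t‖ = √z.im * |l * t + m / t| * Real.exp (-(π * z.im * ((l * t) ^ 2 + (m / t) ^ 2))) := by
  unfold hk
  rw [norm_mul, norm_mul, Complex.norm_real, Complex.norm_real, Complex.norm_exp,
    Real.norm_eq_abs, Real.norm_eq_abs, abs_of_nonneg (Real.sqrt_nonneg _)]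
  congr 2
  have : (2 * π * I * z.re * ((l * m : ℝ) : ℂ) - π * z.im * ((l * t) ^ 2 + (m / t) ^ 2 : ℝ) : ℂ) =
      ((2 * π * z.re * (l * m) : ℝ) : ℂ) * I + ((-(π * z.im * ((l * t) ^ 2 + (m / t) ^ 2)) : ℝ) : ℂ) := by
    push_cast
    ring
  rw [this]
  simp only [Complex.add_re, Complex.re_ofReal_mul, Complex.I_re, mul_zero, Complex.ofReal_re, zero_add]

/-- the Gaussian -/
def gs (Y w : ℝ) : ℝ := √Y * Real.exp (-(π * Y) * w ^ 2)

lemma integrable_gs {Y : ℝ} (hY : 0 < Y) : Integrable (gs Y) :=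
  (integrable_exp_neg_mul_sq (by positivity)).const_mul _

lemma integral_gs {Y : ℝ} (hY : 0 < Y) : ∫ w, gs Y w = 1 := by
  unfold gs
  rw [integral_const_mul, integral_gaussian, ← Real.sqrt_mul hY.le]
  rw [show Y * (π / (π * Y)) = 1 by field_simp]
  simp

/-- after the substitution `w = 2 √p sinh s` -/
def gh (Y p s : ℝ) : ℝ := 2 * √p * Real.cosh s * gs Y (2 * √p * Real.sinh s)

lemma deriv_w (p s : ℝ) : HasDerivAt (fun s => 2 * √p * Real.sinh s) (2 * √p * Real.cosh s) s :=
  (Real.hasDerivAt_sinh s).const_mul _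

lemma gh_aux {Y p : ℝ} (hY : 0 < Y) (hp : 0 < p) :
    Integrable (gh Y p) ∧ ∫ s, gh Y p s = 1 := by
  have hsp : 0 < √p := Real.sqrt_pos.2 hp
  have hinj : InjOn (fun s => 2 * √p * Real.sinh s) univ := by
    intro a _ b _ hab
    have : Real.sinh a = Real.sinh b := by
      have h2 : (2 * √p) ≠ 0 := by positivity
      exact mul_left_cancel₀ h2 hab
    exact Real.sinh_injective this
  have himg : (fun s => 2 * √p * Real.sinh s) '' univ = univ := by
    rw [image_univ, range_eq_univ]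
    intro y
    obtain ⟨x, hx⟩ := Real.sinh_surjective (y / (2 * √p))
    refine ⟨x, ?_⟩
    simp only [hx]
    field_simp
  have habs : ∀ s, |2 * √p * Real.cosh s| • gs Y (2 * √p * Real.sinh s) = gh Y p s := by
    intro s
    rw [abs_of_pos (by have := Real.cosh_pos s; positivity), gh, smul_eq_mul]
  constructor
  · have h := (integrableOn_image_iff_integrableOn_abs_deriv_smul MeasurableSet.univ
      (fun x _ => (deriv_w p x).hasDerivWithinAt) hinj (gs Y)).1 (by
        rw [himg, integrableOn_univ]; exact integrable_gs hY)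
    rw [integrableOn_univ] at h
    simp_rw [habs] at h
    exact h
  · have h := integral_image_eq_integral_abs_deriv_smul MeasurableSet.univ
      (fun x _ => (deriv_w p x).hasDerivWithinAt) hinj (gs Y)
    rw [himg, setIntegral_univ, setIntegral_univ, integral_gs hY] at h
    simp_rw [habs] at h
    exact h.symm

lemma hk_pos_eq {z : ℂ} {l m : ℝ} (hlm : 0 < l * m) (s : ℝ) :
    hk z l m (Real.exp (s - Real.log (|l| / √(l * m)))) =
      (sg l * cexp (2 * π * I * z * ((l * m : ℝ) : ℂ))) * (gh z.im (l * m) s : ℝ) := by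
  have hl0 : l ≠ 0 := by rintro rfl; simp at hlm
  obtain ⟨p, hp⟩ : ∃ p, p = l * m := ⟨_, rfl⟩
  rw [← hp] at hlm ⊢
  have hsp : 0 < √p := Real.sqrt_pos.2 hlm
  have hsq : √p * √p = p := Real.mul_self_sqrt hlm.le
  have hm : m = p / l := by rw [hp]; field_simp
  have hal : 0 < |l| := abs_pos.2 hl0
  have he : Real.exp (s - Real.log (|l| / √p)) = Real.exp s * √p / |l| := by
    rw [Real.exp_sub, Real.exp_log (by positivity)]
    field_simp
  have hc : Real.cosh s = (Real.exp s + (Real.exp s)⁻¹) / 2 := by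
    rw [Real.cosh_eq, Real.exp_neg]
  have hsn : Real.sinh s = (Real.exp s - (Real.exp s)⁻¹) / 2 := by
    rw [Real.sinh_eq, Real.exp_neg]
  have hE := Real.exp_pos s
  have e1 : (l * Real.exp (s - Real.log (|l| / √p))) = (l / |l|) * (√p * Real.exp s) := by
    rw [he]; ring
  have e2 : m / Real.exp (s - Real.log (|l| / √p)) = (l / |l|) * (√p * (Real.exp s)⁻¹) := by
    rw [he, hm]
    have h3 : |l| * |l| = l * l := abs_mul_abs_self l
    have : p / l / (Real.exp s * √p / |l|) = (√p * √p) * |l| / (l * (Real.exp s * √p)) := by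
      rw [hsq]; field_simp
    rw [this]
    field_simp
    nlinarith [h3]
  have hls : (l / |l|) ^ 2 = 1 := by
    rw [div_pow, sq_abs]; field_simp
  have hsg : ((l / |l| : ℝ) : ℂ) = sg l := by
    unfold sg
    split_ifs with h
    · rw [abs_of_pos h, div_self hl0]; simp
    · have : l < 0 := lt_of_le_of_ne (not_lt.1 h) hl0
      rw [abs_of_neg this, div_neg, div_self hl0]; simp
  unfold hk gh gs
  rw [e1, e2, ← hp]
  have e3 : (l / |l|) * (√p * Real.exp s) + (l / |l|) * (√p * (Real.exp s)⁻¹) =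
      (l / |l|) * (2 * √p * Real.cosh s) := by
    rw [hc]; ring
  have e4 : ((l / |l|) * (√p * Real.exp s)) ^ 2 + ((l / |l|) * (√p * (Real.exp s)⁻¹)) ^ 2 =
      (2 * √p * Real.sinh s) ^ 2 + 2 * p := by
    have this : Real.exp s * (Real.exp s)⁻¹ = 1 := mul_inv_cancel₀ hE.ne'
    have h5 : √p ^ 2 = p := by rw [sq, hsq]
    have a1 : ((l / |l|) * (√p * Real.exp s)) ^ 2 = p * Real.exp s ^ 2 := by
      rw [mul_pow, hls, mul_pow, h5]; ring
    have a2 : ((l / |l|) * (√p * (Real.exp s)⁻¹)) ^ 2 = p * (Real.exp s)⁻¹ ^ 2 := by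
      rw [mul_pow, hls, mul_pow, h5]; ring
    rw [a1, a2, hsn, mul_pow, mul_pow, h5]
    linear_combination (2 * p) * this
  rw [e3, e4, Complex.ofReal_mul (l / |l|), hsg]
  have e5 : cexp (2 * π * I * z.re * (p : ℂ) - π * z.im * (((2 * √p * Real.sinh s) ^ 2 + 2 * p : ℝ) : ℂ)) =
      cexp (2 * π * I * z * p) * ((Real.exp (-(π * z.im) * (2 * √p * Real.sinh s) ^ 2) : ℝ) : ℂ) := by
    rw [Complex.ofReal_exp, ← Complex.exp_add]
    congr 1
    have : z = z.re + z.im * I := (Complex.re_add_im z).symm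
    nth_rewrite 3 [this]
    push_cast
    ring_nf
    rw [I_sq]
    ring
  rw [e5]
  push_cast
  ring

lemma hk_pos {z : ℂ} (hz : 0 < z.im) {l m : ℝ} (hlm : 0 < l * m) :
    Integrable (fun s => hk z l m (Real.exp s)) ∧
      ∫ s, hk z l m (Real.exp s) = sg l * cexp (2 * π * I * z * ((l * m : ℝ) : ℂ)) := by
  obtain ⟨h1, h2⟩ := gh_aux hz hlm
  have h3 := (h1.ofReal (𝕜 := ℂ)).const_mul (sg l * cexp (2 * π * I * z * ((l * m : ℝ) : ℂ)))
  have h4 : (fun s => hk z l m (Real.exp (s - Real.log (|l| / √(l * m))))) =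
      fun s => (sg l * cexp (2 * π * I * z * ((l * m : ℝ) : ℂ))) * ((gh z.im (l * m) s : ℝ) : ℂ) :=
    funext fun s => hk_pos_eq hlm s
  constructor
  · have h5 : Integrable (fun s => hk z l m (Real.exp (s - Real.log (|l| / √(l * m))))) := by
      rw [h4]; exact h3
    have h6 := h5.comp_add_right (Real.log (|l| / √(l * m)))
    simpa using h6
  · rw [← integral_sub_right_eq_self (fun s => hk z l m (Real.exp s)) (Real.log (|l| / √(l * m))), h4,
      integral_const_mul, integral_complex_ofReal, h2]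
    simp

lemma continuous_hk_exp (z : ℂ) (l m : ℝ) : Continuous (fun s => hk z l m (Real.exp s)) := by
  unfold hk
  have h : ∀ s : ℝ, Real.exp s ≠ 0 := fun s => (Real.exp_pos s).ne'
  fun_prop (disch := exact h _)

lemma norm_hk_le (z : ℂ) (l m : ℝ) {t : ℝ} (ht : 0 < t) : ‖hk z l m t‖ ≤ ‖hk z |l| |m| t‖ := by
  rw [norm_hk, norm_hk]
  have h1 : (|l| * t) ^ 2 = (l * t) ^ 2 := by rw [mul_pow, sq_abs, mul_pow]
  have h2 : (|m| / t) ^ 2 = (m / t) ^ 2 := by rw [div_pow, sq_abs, div_pow]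
  rw [h1, h2]
  refine mul_le_mul_of_nonneg_right (mul_le_mul_of_nonneg_left ?_ (Real.sqrt_nonneg _))
    (Real.exp_pos _).le
  rw [abs_of_nonneg (a := |l| * t + |m| / t) (by positivity)]
  refine (abs_add_le _ _).trans ?_
  rw [abs_mul, abs_div, abs_of_pos ht]

lemma hk_integrable {z : ℂ} (hz : 0 < z.im) {l m : ℝ} (hl : l ≠ 0) (hm : m ≠ 0) :
    Integrable (fun s => hk z l m (Real.exp s)) := by
  have h1 : 0 < |l| * |m| := mul_pos (abs_pos.2 hl) (abs_pos.2 hm)
  refine (hk_pos hz h1).1.mono (continuous_hk_exp z l m).aestronglyMeasurable ?_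
  exact Filter.Eventually.of_forall fun s => norm_hk_le z l m (Real.exp_pos s)

lemma hk_neg {z : ℂ} {l m : ℝ} (hlm : l * m < 0) :
    ∫ s, hk z l m (Real.exp s) = 0 := by
  have hl0 : l ≠ 0 := by rintro rfl; simp at hlm
  have hm0 : m ≠ 0 := by rintro rfl; simp at hlm
  -- translate to the symmetric point
  obtain ⟨s0, hs0⟩ : ∃ s0, s0 = Real.log (√(-(m / l))) := ⟨_, rfl⟩
  have hml : 0 < -(m / l) := by
    have : m / l = (l * m) / (l * l) := by field_simp
    rw [this]
    have h2 : 0 < l * l := mul_self_pos.2 hl0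
    have := div_neg_of_neg_of_pos hlm h2
    linarith
  have he : Real.exp s0 ^ 2 = -(m / l) := by
    rw [hs0, Real.exp_log (Real.sqrt_pos.2 hml), Real.sq_sqrt hml.le]
  have hE0 := Real.exp_pos s0
  have hm : m = -(l * Real.exp s0 ^ 2) := by rw [he]; field_simp
  have hodd : ∀ s, hk z l m (Real.exp (-s + s0)) = -hk z l m (Real.exp (s + s0)) := by
    intro s
    have hE := Real.exp_pos s
    have e1 : l * Real.exp (-s + s0) = -(m / Real.exp (s + s0)) := by
      rw [Real.exp_add, Real.exp_add, Real.exp_neg]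
      rw [hm]
      field_simp
    have e2 : m / Real.exp (-s + s0) = -(l * Real.exp (s + s0)) := by
      rw [Real.exp_add, Real.exp_add, Real.exp_neg]
      rw [hm]
      field_simp
    unfold hk
    rw [e1, e2, neg_sq, neg_sq, add_comm ((m / Real.exp (s + s0)) ^ 2)]
    push_cast
    ring
  have h1 := integral_add_right_eq_self (μ := volume) (fun s => hk z l m (Real.exp s)) s0
  have h2 := integral_neg_eq_self (fun s => hk z l m (Real.exp (s + s0))) volume
  simp_rw [hodd] at h2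
  rw [integral_neg, h1] at h2
  have h3 : (2 : ℂ) * ∫ s, hk z l m (Real.exp s) = 0 := by linear_combination -h2
  simpa using h3

/-- the value of the integral over all `t` -/
def hv (z : ℂ) (l m : ℝ) : ℂ :=
  if 0 < l * m then sg l * cexp (2 * π * I * z * ((l * m : ℝ) : ℂ)) else 0

lemma hk_integral {z : ℂ} (hz : 0 < z.im) {l m : ℝ} (hl : l ≠ 0) (hm : m ≠ 0) :
    ∫ s, hk z l m (Real.exp s) = hv z l m := by
  unfold hv
  split_ifs with h
  · exact (hk_pos hz h).2
  · refine hk_neg (lt_of_le_of_ne (not_lt.1 h) (mul_ne_zero hl hm))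

lemma hk_scaled {z : ℂ} (hz : 0 < z.im) {l m : ℝ} (hl : l ≠ 0) (hm : m ≠ 0) {lam : ℝ}
    (hlam : 0 < lam) :
    Integrable (fun s => hk z l m (Real.exp (lam * s))) ∧
      ∫ s, hk z l m (Real.exp (lam * s)) = ((lam⁻¹ : ℝ) : ℂ) * hv z l m := by
  constructor
  · exact (hk_integrable hz hl hm).comp_mul_left' hlam.ne'
  · have := MeasureTheory.Measure.integral_comp_mul_left (fun s => hk z l m (Real.exp s)) lam
    rw [this, hk_integral hz hl hm, abs_of_pos (by positivity), Complex.real_smul]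

end

end Vale.Agent.P022.H954
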