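import Vale.Agent.P022.H954.Gau2
import Vale.Agent.P022.H23.Ker

/-!
# P022 / P8: the kernels of Hecke's theta functions of a real quadratic form
-/

open Complex Matrix
open scoped Real ComplexConjugate
open Vale.Agent.P267.H775 (toR toR_apply chr qf)
open Vale.Agent.P022.H23 (BQ Ker ee)

namespace Vale.Agent.P022.H954

noncomputable section

/-- A factorisation of `Q` into two real linear forms. -/
structure Fac (Q : BQ) where
  l0 : ℝ
  l1 : ℝ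
  m0 : ℝ
  m1 : ℝ
  ha : l0 * m0 = Q.a
  hb : l0 * m1 + l1 * m0 = Q.b
  hc : l1 * m1 = Q.c
  hd : l0 * m1 - l1 * m0 ≠ 0

namespace Fac

variable {Q : BQ} (F : Fac Q)

/-- the first linear form -/
def l (x : Fin 2 → ℝ) : ℝ := F.l0 * x 0 + F.l1 * x 1

/-- the second linear form -/
def m (x : Fin 2 → ℝ) : ℝ := F.m0 * x 0 + F.m1 * x 1

/-- the determinant of the two forms -/
def dt : ℝ := F.l0 * F.m1 - F.l1 * F.m0

lemma l_mul_m (x : Fin 2 → ℝ) : F.l x * F.m x = Q.q x := by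
  unfold l m BQ.q
  rw [← F.ha, ← F.hb, ← F.hc]
  ring

lemma det_eq : (Q.det : ℝ) = -F.dt ^ 2 := by
  unfold dt BQ.det
  push_cast
  rw [← F.ha, ← F.hb, ← F.hc]
  ring

lemma l_smul (d : ℝ) (x : Fin 2 → ℝ) : F.l (d • x) = d * F.l x := by
  simp [l]; ring

lemma m_smul (d : ℝ) (x : Fin 2 → ℝ) : F.m (d • x) = d * F.m x := by
  simp [m]; ring

/-- the matrix of `((l t + m/t)/√2, (l t - m/t)/√2)` -/
def mat (t : ℝ) : Matrix (Fin 2) (Fin 2) ℝ :=
  !![(F.l0 * t + F.m0 / t) / √2, (F.l1 * t + F.m1 / t) / √2;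
     (F.l0 * t - F.m0 / t) / √2, (F.l1 * t - F.m1 / t) / √2]

lemma mat_zero (t : ℝ) (x : Fin 2 → ℝ) : (F.mat t *ᵥ x) 0 = (F.l x * t + F.m x / t) / √2 := by
  simp [mat, l, m, Matrix.mulVec, dotProduct, Fin.sum_univ_two]
  ring

lemma mat_one (t : ℝ) (x : Fin 2 → ℝ) : (F.mat t *ᵥ x) 1 = (F.l x * t - F.m x / t) / √2 := by
  simp [mat, l, m, Matrix.mulVec, dotProduct, Fin.sum_univ_two]
  ring

lemma det_mat {t : ℝ} (ht : t ≠ 0) : (F.mat t).det = -F.dt := by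
  have h2 : (√2 : ℝ) ≠ 0 := by positivity
  have h3 : (√2 : ℝ) ^ 2 = 2 := Real.sq_sqrt (by norm_num)
  rw [mat, Matrix.det_fin_two_of, dt]
  field_simp
  rw [h3]
  ring

lemma det_mat_ne {t : ℝ} (ht : t ≠ 0) : (F.mat t).det ≠ 0 := by
  rw [F.det_mat ht]
  exact neg_ne_zero.2 F.hd

/-- Hecke's kernel
`Y^{1/2} (l t + m/t) exp(2πi X l m - π Y (l² t² + m²/t²))` -/
def ker (t : ℝ) (z : ℂ) (x : Fin 2 → ℝ) : ℂ :=
  (√z.im : ℝ) * ((F.l x * t + F.m x / t : ℝ) : ℂ) *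
    cexp (2 * π * I * z.re * (Q.q x : ℝ) - π * z.im * ((F.l x * t) ^ 2 + (F.m x / t) ^ 2 : ℝ))

lemma ker_eq {t : ℝ} (ht : t ≠ 0) (z : ℂ) (x : Fin 2 → ℝ) :
    F.ker t z x = (√(2 * z.im) : ℝ) * G2 (F.mat t) z x := by
  have h2 : (√2 : ℝ) ≠ 0 := by positivity
  have h3 : (√2 : ℝ) ^ 2 = 2 := Real.sq_sqrt (by norm_num)
  have h2c : ((√2 : ℝ) : ℂ) ≠ 0 := by exact_mod_cast h2
  have htc : (t : ℂ) ≠ 0 := by exact_mod_cast ht
  rw [G2_apply, F.mat_zero, F.mat_one, ker, Real.sqrt_mul (by norm_num)]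
  have e1 : (π * I * z * (((F.l x * t + F.m x / t) / √2 : ℝ) : ℂ) ^ 2 -
      π * I * conj z * (((F.l x * t - F.m x / t) / √2 : ℝ) : ℂ) ^ 2) =
      2 * π * I * z.re * (Q.q x : ℝ) - π * z.im * ((F.l x * t) ^ 2 + (F.m x / t) ^ 2 : ℝ) := by
    rw [← F.l_mul_m]
    have hz : z = z.re + z.im * I := (Complex.re_add_im z).symm
    have hzc : conj z = z.re - z.im * I := by
      apply Complex.ext <;> simp
    have h4 : (((√2 : ℝ) : ℂ)) ^ 2 = 2 := by exact_mod_cast h3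
    have h5 : (((F.l x * t + F.m x / t) / √2 : ℝ) : ℂ) ^ 2 =
        ((F.l x : ℂ) ^ 2 * t ^ 2 + 2 * F.l x * F.m x + (F.m x / t : ℝ) ^ 2) / 2 := by
      push_cast
      rw [div_pow, h4]
      field_simp
      ring
    have h6 : (((F.l x * t - F.m x / t) / √2 : ℝ) : ℂ) ^ 2 =
        ((F.l x : ℂ) ^ 2 * t ^ 2 - 2 * F.l x * F.m x + (F.m x / t : ℝ) ^ 2) / 2 := by
      push_cast
      rw [div_pow, h4]
      field_simp
      ring
    rw [h5, h6, hzc]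
    nth_rewrite 1 [hz]
    push_cast
    ring_nf
    rw [I_sq]
    ring
  rw [e1]
  push_cast
  field_simp

lemma G2_congr {M M' : Matrix (Fin 2) (Fin 2) ℝ} {x y : Fin 2 → ℝ} (τ : ℂ)
    (h0 : (M *ᵥ x) 0 = (M' *ᵥ y) 0) (h1 : (M *ᵥ x) 1 = -(M' *ᵥ y) 1) :
    G2 M τ x = G2 M' τ y := by
  rw [G2_apply, G2_apply, h0, h1]
  push_cast
  rw [neg_sq]

lemma mat_dr {t : ℝ} (ht : t ≠ 0) (k : Fin 2 → ℤ) :
    (F.mat t *ᵥ (Q.dr k)) 0 = (((F.mat t)⁻¹)ᵀ *ᵥ (toR k)) 0 ∧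
    (F.mat t *ᵥ (Q.dr k)) 1 = -(((F.mat t)⁻¹)ᵀ *ᵥ (toR k)) 1 := by
  have h2 : (√2 : ℝ) ≠ 0 := by positivity
  have h3 : (√2 : ℝ) ^ 2 = 2 := Real.sq_sqrt (by norm_num)
  have hdt : F.dt ≠ 0 := F.hd
  have hdet := F.det_mat ht
  -- `(M⁻¹)ᵀ k = y` iff `k = Mᵀ y`
  have key : (((F.mat t)⁻¹)ᵀ *ᵥ (toR k)) =
      ![(F.mat t *ᵥ (Q.dr k)) 0, -(F.mat t *ᵥ (Q.dr k)) 1] := by
    have h4 : toR k = (F.mat t)ᵀ *ᵥ ![(F.mat t *ᵥ (Q.dr k)) 0, -(F.mat t *ᵥ (Q.dr k)) 1] := by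
      rw [F.mat_zero, F.mat_one]
      have hdet2 := F.det_eq
      have ha := F.ha
      have hb := F.hb
      have hc := F.hc
      have e0 : F.l (Q.dr k) = -(F.dt)⁻¹ ^ 2 * (F.l0 * (2 * Q.c * k 0 - Q.b * k 1) +
          F.l1 * (-Q.b * k 0 + 2 * Q.a * k 1)) := by
        simp only [BQ.dr, hdet2, l, BQ.dl]
        simp
        field_simp
        ring
      have e1 : F.m (Q.dr k) = -(F.dt)⁻¹ ^ 2 * (F.m0 * (2 * Q.c * k 0 - Q.b * k 1) +
          F.m1 * (-Q.b * k 0 + 2 * Q.a * k 1)) := by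
        simp only [BQ.dr, hdet2, m, BQ.dl]
        simp
        field_simp
        ring
      have e2 : F.l (Q.dr k) = F.dt⁻¹ * (F.l0 * k 1 - F.l1 * k 0) := by
        rw [e0, ← ha, ← hb, ← hc]
        field_simp
        unfold dt
        ring
      have e3 : F.m (Q.dr k) = -F.dt⁻¹ * (F.m0 * k 1 - F.m1 * k 0) := by
        rw [e1, ← ha, ← hb, ← hc]
        field_simp
        unfold dt
        ring
      rw [e2, e3]
      funext i
      fin_cases i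
      · simp [mat, Matrix.mulVec, dotProduct, Fin.sum_univ_two]
        field_simp
        rw [h3]
        unfold dt
        ring
      · simp [mat, Matrix.mulVec, dotProduct, Fin.sum_univ_two]
        field_simp
        rw [h3]
        unfold dt
        ring
    conv_lhs => rw [h4]
    rw [mulVec_mulVec, ← transpose_mul, mul_nonsing_inv _ (isUnit_iff_ne_zero.2 (F.det_mat_ne ht)),
      transpose_one, one_mulVec]
  rw [key]
  constructor <;> simp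

theorem isKer {t : ℝ} (ht : t ≠ 0) : Ker Q (F.ker t) ((|F.dt|⁻¹ : ℝ) : ℂ) where
  add z hz r x := by
    unfold ker ee
    have h1 : (z + r).im = z.im := by simp
    have h2 : ((z + r).re : ℂ) = z.re + r := by simp
    have h3 : cexp (2 * π * I * (z.re + r) * (Q.q x : ℝ) -
        π * z.im * ((F.l x * t) ^ 2 + (F.m x / t) ^ 2 : ℝ)) =
        cexp (2 * π * I * ((r * Q.q x : ℝ) : ℂ)) * cexp (2 * π * I * z.re * (Q.q x : ℝ) -
          π * z.im * ((F.l x * t) ^ 2 + (F.m x / t) ^ 2 : ℝ)) := by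
      rw [← Complex.exp_add]
      congr 1
      push_cast
      ring
    rw [h1, h2, h3]
    ring
  scale z hz d hd x := by
    unfold ker
    have h1 : ((d : ℂ) ^ 2 * z).im = d ^ 2 * z.im := by
      rw [← Complex.ofReal_pow, Complex.im_ofReal_mul]
    have h2 : ((d : ℂ) ^ 2 * z).re = d ^ 2 * z.re := by
      rw [← Complex.ofReal_pow, Complex.re_ofReal_mul]
    rw [h1, h2, Real.sqrt_mul (by positivity), Real.sqrt_sq hd.le, F.l_smul, F.m_smul, BQ.q_smul]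
    have e1 : (2 * π * I * ((d ^ 2 * z.re : ℝ) : ℂ) * (Q.q x : ℝ) -
        π * ((d ^ 2 * z.im : ℝ) : ℂ) * ((F.l x * t) ^ 2 + (F.m x / t) ^ 2 : ℝ) : ℂ) =
        2 * π * I * z.re * ((d ^ 2 * Q.q x : ℝ) : ℂ) -
        π * z.im * ((d * F.l x * t) ^ 2 + (d * F.m x / t) ^ 2 : ℝ) := by
      push_cast
      ring
    rw [e1]
    congr 1
    push_cast
    ring
  sum z hz x := by
    have h := (summable_G2 (F.mat t) (F.det_mat_ne ht) hz x).mul_left ((√(2 * z.im) : ℝ) : ℂ)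
    refine h.congr fun n => ?_
    rw [F.ker_eq ht]
  pois z hz x := by
    have hz0 : z ≠ 0 := by rintro rfl; simp at hz
    have h := (poisson_G2 (F.mat t) (F.det_mat_ne ht) hz x).tsum_eq
    have e1 : ∑' n : Fin 2 → ℤ, F.ker t z (x + toR n) =
        (√(2 * z.im) : ℝ) * ∑' n : Fin 2 → ℤ, G2 (F.mat t) z (x + toR n) := by
      rw [← tsum_mul_left]
      exact tsum_congr fun n => F.ker_eq ht _ _
    rw [e1, ← h, ← tsum_mul_left, ← tsum_mul_left]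
    refine tsum_congr fun k => ?_
    have e2 : G2 ((F.mat t)⁻¹)ᵀ (-1 / z) (toR k) = G2 (F.mat t) (-1 / z) (Q.dr k) := by
      obtain ⟨h0, h1⟩ := F.mat_dr ht k
      refine G2_congr _ h0.symm ?_
      rw [h1, neg_neg]
    have e3 : (√(2 * z.im) : ℝ) * ‖z‖⁻¹ = √(2 * (-1 / z).im) := by
      have : (-1 / z).im = z.im / ‖z‖ ^ 2 := by
        rw [neg_div, one_div, Complex.neg_im, Complex.inv_im, Complex.normSq_eq_norm_sq]
        ring
      rw [this, show 2 * (z.im / ‖z‖ ^ 2) = (2 * z.im) * (‖z‖⁻¹) ^ 2 by field_simp,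
        Real.sqrt_mul (x := 2 * z.im) (by positivity), Real.sqrt_sq (by positivity)]
    rw [e2, F.ker_eq ht, F.det_mat ht, abs_neg, ← e3]
    push_cast
    field_simp

end Fac

end

end Vale.Agent.P022.H954
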