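import Vale.Agent.P022.H954.Int1

/-!
# P022 / P8: unfolding
-/

open Complex MeasureTheory Set
open scoped Real ComplexConjugate Interval

namespace Vale.Agent.P022.H954

noncomputable section

/-- an action of `ℤ` on pairs of reals -/
structure Orb (X : Type*) where
  l : X → ℝ
  m : X → ℝ
  U : Equiv.Perm X
  ε : ℝ
  hε : 1 < ε
  hl : ∀ x, l (U x) = ε * l x
  hm : ∀ x, m (U x) = ε⁻¹ * m x
  l0 : ∀ x, l x ≠ 0
  m0 : ∀ x, m x ≠ 0

namespace Orb

variable {X : Type*} (O : Orb X)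

lemma ε_pos : 0 < O.ε := lt_trans one_pos O.hε

lemma l_zpow (k : ℤ) (x : X) : O.l ((O.U ^ k) x) = O.ε ^ k * O.l x := by
  have h0 := O.ε_pos.ne'
  induction k using Int.induction_on with
  | zero => simp
  | succ n ih =>
    rw [zpow_add_one, Equiv.Perm.mul_apply, zpow_add_one₀ h0]
    have : (O.U ^ (n : ℤ)) (O.U x) = O.U ((O.U ^ (n : ℤ)) x) := by
      rw [← Equiv.Perm.mul_apply, ← Equiv.Perm.mul_apply, ← zpow_add_one, ← zpow_one_add, add_comm]
    rw [this, O.hl, ih]; ring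
  | pred n ih =>
    rw [zpow_sub_one₀ h0]
    have h1 : (O.U ^ (-(n : ℤ))) x = O.U ((O.U ^ (-(n : ℤ) - 1)) x) := by
      rw [← Equiv.Perm.mul_apply, ← zpow_one_add]
      congr 2; ring
    rw [h1, O.hl] at ih
    have : O.l ((O.U ^ (-(n : ℤ) - 1)) x) = O.ε⁻¹ * (O.ε ^ (-(n : ℤ)) * O.l x) := by
      rw [← ih]; field_simp
    rw [this]; ring

lemma m_zpow (k : ℤ) (x : X) : O.m ((O.U ^ k) x) = (O.ε ^ k)⁻¹ * O.m x := by
  have h0 := O.ε_pos.ne'
  induction k using Int.induction_on with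
  | zero => simp
  | succ n ih =>
    rw [zpow_add_one, Equiv.Perm.mul_apply, zpow_add_one₀ h0]
    have : (O.U ^ (n : ℤ)) (O.U x) = O.U ((O.U ^ (n : ℤ)) x) := by
      rw [← Equiv.Perm.mul_apply, ← Equiv.Perm.mul_apply, ← zpow_add_one, ← zpow_one_add, add_comm]
    rw [this, O.hm, ih, mul_inv]; ring
  | pred n ih =>
    rw [zpow_sub_one₀ h0]
    have h1 : (O.U ^ (-(n : ℤ))) x = O.U ((O.U ^ (-(n : ℤ) - 1)) x) := by
      rw [← Equiv.Perm.mul_apply, ← zpow_one_add]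
      congr 2; ring
    rw [h1, O.hm] at ih
    have : O.m ((O.U ^ (-(n : ℤ) - 1)) x) = O.ε * ((O.ε ^ (-(n : ℤ)))⁻¹ * O.m x) := by
      rw [← ih]; field_simp
    rw [this, mul_inv, inv_inv]; ring

/-- fundamental domain -/
def R : Set X := {x | |O.m x| ≤ |O.l x| ∧ |O.l x| < O.ε ^ 2 * |O.m x|}

lemma mem_R_iff (x : X) : x ∈ O.R ↔ 1 ≤ |O.l x / O.m x| ∧ |O.l x / O.m x| < O.ε ^ 2 := by
  have hm := abs_pos.2 (O.m0 x)
  rw [R, mem_ofPred_eq, abs_div, one_le_div hm, div_lt_iff₀ hm]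

lemma ratio_zpow (k : ℤ) (x : X) :
    |O.l ((O.U ^ k) x) / O.m ((O.U ^ k) x)| = (O.ε ^ 2) ^ k * |O.l x / O.m x| := by
  have h0 := O.ε_pos
  rw [O.l_zpow, O.m_zpow]
  have hk : 0 < O.ε ^ k := zpow_pos h0 k
  have : O.ε ^ k * O.l x / ((O.ε ^ k)⁻¹ * O.m x) = (O.ε ^ k * O.ε ^ k) * (O.l x / O.m x) := by
    field_simp
  rw [this, abs_mul, abs_of_pos (by positivity), ← zpow_natCast, ← zpow_mul, mul_comm ((2 : ℕ) : ℤ) k,
    zpow_mul, zpow_natCast, sq]

/-- orbits are parametrised by the fundamental domain -/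
def eqv : ℤ × O.R ≃ X := by
  refine Equiv.ofBijective (fun p => (O.U ^ p.1) p.2) ⟨?_, ?_⟩
  · rintro ⟨k, x, hx⟩ ⟨j, y, hy⟩ h
    simp only at h
    rw [O.mem_R_iff] at hx hy
    have hr := congrArg (fun x => |O.l x / O.m x|) h
    simp only [O.ratio_zpow] at hr
    have he : 1 < O.ε ^ 2 := one_lt_pow₀ O.hε (by norm_num)
    have key : ∀ (k j : ℤ) (a b : ℝ), 1 ≤ a → b < O.ε ^ 2 → (O.ε ^ 2) ^ k * a = (O.ε ^ 2) ^ j * b →
        k ≤ j := by
      intro k j a b ha hb hab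
      by_contra hlt
      push Not at hlt
      have h1 : (O.ε ^ 2) ^ (j + 1) ≤ (O.ε ^ 2) ^ k := zpow_le_zpow_right₀ he.le hlt
      have h2 : 0 < (O.ε ^ 2) ^ j := zpow_pos (by linarith) j
      rw [zpow_add_one₀ (by linarith)] at h1
      have h3 : (O.ε ^ 2) ^ k ≤ (O.ε ^ 2) ^ k * a :=
        le_mul_of_one_le_right (zpow_pos (by linarith) k).le ha
      have h4 : (O.ε ^ 2) ^ j * b < (O.ε ^ 2) ^ j * O.ε ^ 2 := mul_lt_mul_of_pos_left hb h2
      linarith
    have hkj : k = j := le_antisymm (key k j _ _ hx.1 hy.2 hr) (key j k _ _ hy.1 hx.2 hr.symm)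
    subst hkj
    have : x = y := (O.U ^ k).injective h
    subst this
    rfl
  · intro x
    have he : 1 < O.ε ^ 2 := one_lt_pow₀ O.hε (by norm_num)
    have hpos : 0 < |O.l x / O.m x| := abs_pos.2 (div_ne_zero (O.l0 x) (O.m0 x))
    obtain ⟨n, hn1, hn2⟩ := exists_mem_Ico_zpow hpos he
    refine ⟨(n, ⟨(O.U ^ (-n)) x, ?_⟩), ?_⟩
    · rw [O.mem_R_iff, O.ratio_zpow, zpow_neg]
      have h2 : 0 < (O.ε ^ 2) ^ n := zpow_pos (by linarith) n
      rw [zpow_add_one₀ (by linarith)] at hn2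
      constructor
      · rw [inv_mul_eq_div, one_le_div h2]; exact hn1
      · rw [inv_mul_eq_div, div_lt_iff₀ h2]; linarith
    · simp only
      rw [← Equiv.Perm.mul_apply, ← zpow_add]
      simp

@[simp] lemma eqv_apply (p : ℤ × O.R) : O.eqv p = (O.U ^ p.1) (p.2 : X) := rfl

lemma inv_zpow {φ : X → ℂ} (hφ : ∀ x, φ (O.U x) = φ x) (k : ℤ) (x : X) :
    φ ((O.U ^ k) x) = φ x := by
  induction k using Int.induction_on with
  | zero => simp
  | succ n ih =>
    rw [add_comm, zpow_one_add, Equiv.Perm.mul_apply, hφ, ih]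
  | pred n ih =>
    rw [← hφ, ← Equiv.Perm.mul_apply, ← zpow_one_add, ← ih]
    congr 3; ring

lemma _root_.Vale.Agent.P022.H954.hs_congr {β : Type*} {f g : β → ℂ} {a : ℂ} (hg : HasSum g a)
    (h : ∀ b, f b = g b) : HasSum f a := by
  rwa [funext h]

/-- **Unfolding**. -/
theorem unfold [Countable X] {z : ℂ} (hz : 0 < z.im) (φ : X → ℂ) (hφ : ∀ x, φ (O.U x) = φ x)
    (u : X → ℝ) (hu : Summable u)
    (hb : ∀ t, 1 ≤ t → t ≤ O.ε → ∀ x, ‖φ x * hk z (O.l x) (O.m x) t‖ ≤ u x) :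
    HasSum (fun x : O.R => φ x * hv z (O.l x) (O.m x))
      (Real.log O.ε * ∫ s in (0 : ℝ)..1, ∑' x, φ x * hk z (O.l x) (O.m x) (Real.exp (Real.log O.ε * s))) := by
  obtain ⟨lam, hlam⟩ : ∃ lam, lam = Real.log O.ε := ⟨_, rfl⟩
  have hlam0 : 0 < lam := by rw [hlam]; exact Real.log_pos O.hε
  have hexp : Real.exp lam = O.ε := by rw [hlam, Real.exp_log O.ε_pos]
  rw [← hlam]
  have hmem : ∀ s : ℝ, 0 ≤ s → s ≤ 1 → 1 ≤ Real.exp (lam * s) ∧ Real.exp (lam * s) ≤ O.ε := by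
    intro s h0 h1
    constructor
    · exact Real.one_le_exp (by positivity)
    · rw [← hexp]
      exact Real.exp_le_exp.2 (by nlinarith)
  have hcont : ∀ x, Continuous fun s : ℝ => φ x * hk z (O.l x) (O.m x) (Real.exp (lam * s)) := by
    intro x
    exact continuous_const.mul ((continuous_hk_exp z (O.l x) (O.m x)).comp (continuous_const.mul continuous_id))
  -- exchange of sum and integral
  have h1 : HasSum (fun x => ∫ s in (0 : ℝ)..1, φ x * hk z (O.l x) (O.m x) (Real.exp (lam * s)))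
      (∫ s in (0 : ℝ)..1, ∑' x, φ x * hk z (O.l x) (O.m x) (Real.exp (lam * s))) := by
    refine intervalIntegral.hasSum_integral_of_dominated_convergence (fun x _ => u x)
      (fun x => (hcont x).aestronglyMeasurable) ?_ ?_ ?_ ?_
    · intro x
      refine Filter.Eventually.of_forall fun s hs => ?_
      rw [uIoc_of_le zero_le_one] at hs
      obtain ⟨a, b⟩ := hmem s hs.1.le hs.2
      exact hb _ a b x
    · exact Filter.Eventually.of_forall fun s _ => hu
    · exact intervalIntegrable_const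
    · refine Filter.Eventually.of_forall fun s hs => ?_
      rw [uIoc_of_le zero_le_one] at hs
      obtain ⟨a, b⟩ := hmem s hs.1.le hs.2
      exact (Summable.of_norm_bounded hu (fun x => hb _ a b x)).hasSum
  -- reindex by orbits
  have h2 := (O.eqv.hasSum_iff).2 h1
  have h3 : ∀ x : O.R, HasSum (fun k : ℤ => ((fun x => ∫ s in (0 : ℝ)..1,
      φ x * hk z (O.l x) (O.m x) (Real.exp (lam * s))) ∘ O.eqv) (k, x))
      (φ x * (((lam⁻¹ : ℝ) : ℂ) * hv z (O.l x) (O.m x))) := by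
    intro x
    obtain ⟨hi, hI⟩ := hk_scaled hz (O.l0 (x : X)) (O.m0 (x : X)) hlam0
    have h4 := hi.hasSum_intervalIntegral_comp_add_int
    rw [hI] at h4
    have h5 := h4.mul_left (φ x)
    refine hs_congr h5 fun k => ?_
    simp only [Function.comp, eqv_apply]
    rw [O.inv_zpow hφ, O.l_zpow, O.m_zpow, ← intervalIntegral.integral_const_mul]
    congr 1
    funext s
    rw [hk_mul _ _ _ _ (zpow_ne_zero k O.ε_pos.ne')]
    congr 2
    rw [← hexp, ← Real.rpow_intCast, ← Real.exp_mul, ← Real.exp_add]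
    congr 1
    ring
  have h6 : HasSum (fun x : O.R => φ x * (((lam⁻¹ : ℝ) : ℂ) * hv z (O.l x) (O.m x)))
      (∫ s in (0 : ℝ)..1, ∑' x, φ x * hk z (O.l x) (O.m x) (Real.exp (lam * s))) :=
    ((Equiv.prodComm O.R ℤ).hasSum_iff.2 h2).prod_fiberwise h3
  have h7 := h6.mul_left (lam : ℂ)
  refine hs_congr h7 fun x => ?_
  have : (lam : ℂ) ≠ 0 := by exact_mod_cast hlam0.ne'
  push_cast
  field_simp

end Orb

end

end Vale.Agent.P022.H954
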